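import Vale.Agent.P076.H40.Cnt

/-!
# P076 / X.BIL : `StBern` (helper40)
-/

open MeasureTheory Complex Set Filter Topology FourierTransform
open scoped ENNReal ContDiff

namespace Vale.Agent.P076.H40

open Vale.Agent.P076

noncomputable section

theorem W_meas (s : ℝ) : Measurable (X.W s) := (H972.continuous_W s).measurable

theorem lint_W_le {s : ℝ} (hs : 0 < s) (x0 : ℝ) :
    ∫⁻ y, ENNReal.ofReal (X.W s (y - x0)) ≤ 2 := by
  have h1 : ∀ y, ENNReal.ofReal (X.W s (y - x0)) ≤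
      ENNReal.ofReal (s / Real.pi) * ENNReal.ofReal (2 / (s ^ 2 + (y - x0) ^ 2)) := by
    intro y
    rw [← ENNReal.ofReal_mul (by positivity), W_eq' hs]
    refine ENNReal.ofReal_le_ofReal ?_
    have hp := Real.pi_pos
    have h2 : s / Real.pi * (2 / (s ^ 2 + (y - x0) ^ 2)) =
        2 * s ^ 3 / Real.pi / ((s ^ 2 + (y - x0) ^ 2) * s ^ 2) := by
      field_simp
    rw [h2]
    gcongr
    rw [sq (s ^ 2 + (y - x0) ^ 2)]
    gcongr
    nlinarith [sq_nonneg (y - x0)]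
  refine (lintegral_mono h1).trans ?_
  have hm : Measurable fun y => ENNReal.ofReal (2 / (s ^ 2 + (y - x0) ^ 2)) :=
    ENNReal.measurable_ofReal.comp (by fun_prop)
  rw [lintegral_const_mul _ hm, lint_tail hs, ← ENNReal.ofReal_mul (by positivity)]
  have hp := Real.pi_ne_zero
  rw [show s / Real.pi * (2 * Real.pi / s) = 2 by field_simp]
  simp

/-- pointwise product bound of two weights -/
theorem W_mul_W {s : ℝ} (hs : 0 < s) (a b : ℝ) :
    X.W s a * X.W s b ≤ 16 * X.W s (a + b) * (X.W s a + X.W s b) := by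
  have key : ∀ u v : ℝ, |u| ≤ 2 * |v| → X.W s v ≤ 16 * X.W s u := by
    intro u v huv
    rw [W_eq' hs, W_eq' hs]
    have h1 : u ^ 2 ≤ 4 * v ^ 2 := by
      rw [← sq_abs u, ← sq_abs v]
      have := pow_le_pow_left₀ (abs_nonneg u) huv 2
      nlinarith
    have h2 : s ^ 2 + u ^ 2 ≤ 4 * (s ^ 2 + v ^ 2) := by nlinarith [sq_nonneg s]
    have h3 : (s ^ 2 + u ^ 2) ^ 2 ≤ 16 * (s ^ 2 + v ^ 2) ^ 2 := by
      have := pow_le_pow_left₀ (by positivity) h2 2
      nlinarith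
    rw [← mul_div_assoc, div_le_div_iff₀ (by positivity) (by positivity)]
    calc 2 * s ^ 3 / Real.pi * (s ^ 2 + u ^ 2) ^ 2 ≤ 2 * s ^ 3 / Real.pi * (16 * (s ^ 2 + v ^ 2) ^ 2) := by
          gcongr
      _ = _ := by ring
  have n1 := H972.W_nonneg hs a
  have n2 := H972.W_nonneg hs b
  have n3 := H972.W_nonneg hs (a + b)
  rcases le_total |a| |b| with h | h
  · have h4 : |a + b| ≤ 2 * |b| := by linarith [abs_add_le a b]
    have := key (a + b) b h4
    calc X.W s a * X.W s b ≤ X.W s a * (16 * X.W s (a + b)) := by gcongr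
      _ ≤ _ := by nlinarith [mul_nonneg n3 n2]
  · have h4 : |a + b| ≤ 2 * |a| := by linarith [abs_add_le a b]
    have := key (a + b) a h4
    calc X.W s a * X.W s b ≤ (16 * X.W s (a + b)) * X.W s b := by gcongr
      _ ≤ _ := by nlinarith [mul_nonneg n3 n1]

theorem W_conv {s : ℝ} (hs : 0 < s) (x y : ℝ) :
    ∫⁻ z, ENNReal.ofReal (X.W s (x - z)) * ENNReal.ofReal (X.W s (z - y)) ≤
      ENNReal.ofReal (X.W s (x - y)) * 64 := by
  have h1 : ∀ z, ENNReal.ofReal (X.W s (x - z)) * ENNReal.ofReal (X.W s (z - y)) ≤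
      ENNReal.ofReal (16 * X.W s (x - y)) *
        (ENNReal.ofReal (X.W s (z - x)) + ENNReal.ofReal (X.W s (z - y))) := by
    intro z
    have n1 := H972.W_nonneg hs (x - z)
    have n2 := H972.W_nonneg hs (z - y)
    have n3 := H972.W_nonneg hs (x - y)
    have e1 : X.W s (z - x) = X.W s (x - z) := by
      rw [W_eq' hs, W_eq' hs]; congr 2; ring
    rw [e1, ← ENNReal.ofReal_mul n1, ← ENNReal.ofReal_add n1 n2, ← ENNReal.ofReal_mul (by positivity)]
    refine ENNReal.ofReal_le_ofReal ?_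
    have := W_mul_W hs (x - z) (z - y)
    rwa [sub_add_sub_cancel] at this
  refine (lintegral_mono h1).trans ?_
  have hm : ∀ c : ℝ, Measurable fun z => ENNReal.ofReal (X.W s (z - c)) := fun c =>
    ENNReal.measurable_ofReal.comp ((W_meas s).comp (by fun_prop))
  have hm2 : Measurable fun z => ENNReal.ofReal (X.W s (z - x)) + ENNReal.ofReal (X.W s (z - y)) :=
    (hm x).add (hm y)
  rw [lintegral_const_mul _ hm2, lintegral_add_left (hm x)]
  calc ENNReal.ofReal (16 * X.W s (x - y)) * ((∫⁻ z, ENNReal.ofReal (X.W s (z - x))) +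
        (∫⁻ z, ENNReal.ofReal (X.W s (z - y)))) ≤ ENNReal.ofReal (16 * X.W s (x - y)) * (2 + 2) :=
        mul_le_mul_right (add_le_add (lint_W_le hs x) (lint_W_le hs y)) _
    _ = _ := by
        rw [ENNReal.ofReal_mul (by norm_num)]
        have : ENNReal.ofReal 16 = 16 := by simp
        rw [this]
        ring

theorem measurable_ev_x {g : ℝ → ℂ} (hg : Integrable g) (t : ℝ) : Measurable fun z => ‖ev g z t‖ₑ ^ 2 := by
  have h := (measurable_ev hg).comp (measurable_prodMk_right (y := t) (α := ℝ))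
  exact h.enorm.pow_const 2

/-- Plancherel at time `t` -/
theorem planch_ev {G : ℝ → ℂ} {R0 : ℝ} (hG : Pf G R0) (t : ℝ) :
    ∫⁻ x, ‖ev G x t‖ₑ ^ 2 = ∫⁻ ξ, ‖G ξ‖ₑ ^ 2 := by
  have hm : Measurable fun ξ => G ξ * ee (-(t * ξ ^ 2)) :=
    hG.meas.mul (measurable_ee.comp (by fun_prop))
  obtain ⟨b, hb⟩ := hG.bdd
  have hnorm : ∀ ξ, ‖G ξ * ee (-(t * ξ ^ 2))‖ = ‖G ξ‖ := by
    intro ξ; rw [norm_mul, norm_ee, mul_one]
  have h := Pf.of_bdd (g := fun ξ => G ξ * ee (-(t * ξ ^ 2))) hm.aestronglyMeasurable (b := b)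
    (fun ξ => by rw [hnorm]; exact hb ξ) (R0 := R0) (fun ξ hξ => hG.supp ξ (by
      intro h0; apply hξ; show G ξ * _ = 0; rw [h0, zero_mul]))
  have h2 := planch_ee (fun ξ => G ξ * ee (-(t * ξ ^ 2))) h.1 h.2
  have e1 : ∀ x, ev G x t = ∫ ξ, G ξ * ee (-(t * ξ ^ 2)) * ee (x * ξ) := by
    intro x
    unfold ev
    refine integral_congr_ae (Eventually.of_forall fun ξ => ?_)
    show G ξ * ee (x * ξ - t * ξ ^ 2) = G ξ * ee (-(t * ξ ^ 2)) * ee (x * ξ)
    rw [show x * ξ - t * ξ ^ 2 = -(t * ξ ^ 2) + x * ξ by ring, ee_add, mul_assoc]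
  simp_rw [e1, h2]
  refine lintegral_congr fun ξ => ?_
  rw [enorm_mul, enorm_ee, mul_one]

theorem ofReal_comb {A B s : ℝ} (hA : 0 ≤ A) (hB : 0 ≤ B) (hs : 0 ≤ s) :
    2 * ENNReal.ofReal A + 2 * ENNReal.ofReal B * ENNReal.ofReal (2 * s) =
      ENNReal.ofReal (2 * A + 2 * B * (2 * s)) := by
  rw [ENNReal.ofReal_add (by positivity) (by positivity), ENNReal.ofReal_mul (p := 2) (q := A) (by norm_num),
    ENNReal.ofReal_mul (p := 2 * B) (q := 2 * s) (by positivity),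
    ENNReal.ofReal_mul (p := 2) (q := B) (by norm_num), ENNReal.ofReal_ofNat]

/-- local mass of `ψ(D)u` in a window of length `2 s` at a time `t`, `|t - t1| ≤ 4 s` -/
theorem loc_mass (ψ : ℝ → ℂ) (hψ : ContDiff ℝ ∞ ψ) (hc : HasCompactSupport ψ) :
    ∃ C : ℝ, 0 ≤ C ∧ ∀ (s z0 t1 t : ℝ) (h : ℝ → ℂ), 1 ≤ s → Integrable h → |t - t1| ≤ 4 * s →
      ∫⁻ z in Icc (z0 - s) (z0 + s), ‖ev (fun ξ => ψ ξ * h ξ) z t‖ₑ ^ 2 ≤
        ENNReal.ofReal (C * (s * Es s z0 t1 h)) := by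
  obtain ⟨R, hR⟩ : ∃ R : ℝ, ∀ ξ ∈ tsupport ψ, |ξ| ≤ R := by
    obtain ⟨R, hR⟩ := hc.isCompact.isBounded.subset_closedBall 0
    refine ⟨R, fun ξ hξ => ?_⟩
    have := hR hξ
    simpa using this
  obtain ⟨C1, hC1, hloc⟩ := loc ψ hψ hc (max R 0) (fun ξ hξ => (hR ξ hξ).trans (le_max_left _ _))
    (le_max_right _ _)
  refine ⟨6 * C1, by positivity, ?_⟩
  intro s z0 t1 t h hs hh ht
  have hs0 : 0 < s := by linarith
  obtain ⟨G, hG, hGψ, hGm, hGe⟩ := hloc s z0 t1 h hs hh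
  have hE0 := Es_nonneg hs0 z0 t1 h
  set E := Es s z0 t1 h with hE
  have hp : ∀ z ∈ Icc (z0 - s) (z0 + s), ‖ev (fun ξ => ψ ξ * h ξ) z t‖ₑ ^ 2 ≤
      2 * ‖ev G z t‖ₑ ^ 2 + 2 * ENNReal.ofReal (C1 * (s⁻¹ ^ 4 * E)) := by
    intro z hz
    have hz' : |z - z0| ≤ 4 * s := by rw [abs_le]; constructor <;> linarith [hz.1, hz.2]
    have h1 := hGe z t hz' ht
    rw [← ofReal_norm, ← ENNReal.ofReal_pow (norm_nonneg _),
      ENNReal.ofReal_le_ofReal_iff (by positivity)] at h1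
    have h9 : ‖ev (fun ξ => ψ ξ * h ξ) z t‖ ≤ ‖ev G z t‖ + ‖ev (fun ξ => ψ ξ * h ξ) z t - ev G z t‖ := by
      have := norm_add_le (ev G z t) (ev (fun ξ => ψ ξ * h ξ) z t - ev G z t)
      rwa [add_sub_cancel] at this
    have h10 : ‖ev (fun ξ => ψ ξ * h ξ) z t‖ ^ 2 ≤
        2 * ‖ev G z t‖ ^ 2 + 2 * (C1 * (s⁻¹ ^ 4 * E)) := by
      refine (pow_le_pow_left₀ (norm_nonneg _) h9 2).trans ?_
      nlinarith [sq_nonneg (‖ev G z t‖ - ‖ev (fun ξ => ψ ξ * h ξ) z t - ev G z t‖)]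
    have h11 := ENNReal.ofReal_le_ofReal h10
    rw [ENNReal.ofReal_add (by positivity) (by positivity), ENNReal.ofReal_mul (by norm_num),
      ENNReal.ofReal_mul (p := 2) (q := C1 * (s⁻¹ ^ 4 * E)) (by norm_num),
      ENNReal.ofReal_pow (norm_nonneg _), ENNReal.ofReal_pow (norm_nonneg _), ofReal_norm, ofReal_norm,
      ENNReal.ofReal_ofNat] at h11
    exact h11
  have hGc : Measurable fun z => ‖ev G z t‖ₑ ^ 2 := measurable_ev_x hG.int t
  calc ∫⁻ z in Icc (z0 - s) (z0 + s), ‖ev (fun ξ => ψ ξ * h ξ) z t‖ₑ ^ 2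
      ≤ ∫⁻ z in Icc (z0 - s) (z0 + s), (2 * ‖ev G z t‖ₑ ^ 2 + 2 * ENNReal.ofReal (C1 * (s⁻¹ ^ 4 * E))) :=
        setLIntegral_mono' measurableSet_Icc hp
    _ = 2 * (∫⁻ z in Icc (z0 - s) (z0 + s), ‖ev G z t‖ₑ ^ 2) +
        2 * ENNReal.ofReal (C1 * (s⁻¹ ^ 4 * E)) * ENNReal.ofReal (2 * s) := by
        rw [lintegral_add_left (hGc.const_mul 2), lintegral_const_mul _ hGc, setLIntegral_const,
          Real.volume_Icc]
        congr 3
        ring
    _ ≤ 2 * ENNReal.ofReal (C1 * (s * E)) + 2 * ENNReal.ofReal (C1 * (s⁻¹ ^ 4 * E)) * ENNReal.ofReal (2 * s) := by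
        gcongr
        calc ∫⁻ z in Icc (z0 - s) (z0 + s), ‖ev G z t‖ₑ ^ 2 ≤ ∫⁻ z, ‖ev G z t‖ₑ ^ 2 :=
              setLIntegral_le_lintegral _ _
          _ = ∫⁻ ξ, ‖G ξ‖ₑ ^ 2 := planch_ev hG t
          _ ≤ _ := hGm
    _ = ENNReal.ofReal (2 * (C1 * (s * E)) + 2 * (C1 * (s⁻¹ ^ 4 * E)) * (2 * s)) :=
        ofReal_comb (by positivity) (by positivity) hs0.le
    _ ≤ _ := by
        refine ENNReal.ofReal_le_ofReal ?_
        have hsi : s⁻¹ ≤ 1 := inv_le_one_of_one_le₀ hs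
        have hsi4 : s⁻¹ ^ 4 ≤ 1 := pow_le_one₀ (by positivity) hsi
        have : s⁻¹ ^ 4 * E ≤ E := by nlinarith
        calc 2 * (C1 * (s * E)) + 2 * (C1 * (s⁻¹ ^ 4 * E)) * (2 * s) ≤
              2 * (C1 * (s * E)) + 2 * (C1 * E) * (2 * s) := by gcongr
          _ = _ := by ring

/-- propagation of the local energy -/
theorem Es_prop (ψ : ℝ → ℂ) (hψ : ContDiff ℝ ∞ ψ) (hc : HasCompactSupport ψ) :
    ∃ C : ℝ, 0 ≤ C ∧ ∀ (s x t1 t : ℝ) (h : ℝ → ℂ), 1 ≤ s → Integrable h → |t - t1| ≤ 4 * s →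
      Es s x t (fun ξ => ψ ξ * h ξ) ≤ C * Es s x t1 h := by
  obtain ⟨C1, hC1, hmass⟩ := loc_mass ψ hψ hc
  refine ⟨288 * C1, by positivity, ?_⟩
  intro s x t1 t h hs hh ht
  have hs0 : 0 < s := by linarith
  obtain ⟨bψ, hbψ⟩ := hψ.continuous.bounded_above_of_compact_support hc
  have hψh : Integrable fun ξ => ψ ξ * h ξ :=
    hh.bdd_mul (c := bψ) hψ.continuous.aestronglyMeasurable (Eventually.of_forall hbψ)
  have hE0 := Es_nonneg hs0 x t1 h
  rw [← ENNReal.ofReal_le_ofReal_iff (by positivity), ← Es_lint hs0 x t hψh]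
  set v : ℝ → ℝ≥0∞ := fun z => ‖ev (fun ξ => ψ ξ * h ξ) z t‖ₑ ^ 2 with hv
  have hvm : Measurable v := measurable_ev_x hψh t
  have hfm : Measurable fun y => ‖ev h y t1‖ₑ ^ 2 := measurable_ev_x hh t1
  have hm3 : Measurable fun p : ℝ × ℝ => (ENNReal.ofReal (X.W s (x - p.1)) *
      ENNReal.ofReal (X.W s (p.1 - p.2))) * ‖ev h p.2 t1‖ₑ ^ 2 := by
    refine Measurable.mul (Measurable.mul ?_ ?_) (hfm.comp measurable_snd)
    · exact ENNReal.measurable_ofReal.comp ((W_meas s).comp (by fun_prop))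
    · exact ENNReal.measurable_ofReal.comp ((W_meas s).comp (by fun_prop))
  have hm9 : Measurable fun z0 : ℝ => 9 * ENNReal.ofReal (X.W s (x - z0)) :=
    (ENNReal.measurable_ofReal.comp ((W_meas s).comp (by fun_prop))).const_mul 9
  have hind : Measurable fun p : ℝ × ℝ => indicator (Icc (p.2 - s) (p.2 + s)) v p.1 := by
    have hS1 : MeasurableSet {p : ℝ × ℝ | p.2 - s ≤ p.1} := measurableSet_le (by fun_prop) (by fun_prop)
    have hS2 : MeasurableSet {p : ℝ × ℝ | p.1 ≤ p.2 + s} := measurableSet_le (by fun_prop) (by fun_prop)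
    have hS : MeasurableSet {p : ℝ × ℝ | p.2 - s ≤ p.1 ∧ p.1 ≤ p.2 + s} := hS1.inter hS2
    have h1 := (hvm.comp (measurable_fst (β := ℝ) (α := ℝ))).indicator hS
    have e : (fun p : ℝ × ℝ => indicator (Icc (p.2 - s) (p.2 + s)) v p.1) =
        indicator {p : ℝ × ℝ | p.2 - s ≤ p.1 ∧ p.1 ≤ p.2 + s} (v ∘ Prod.fst) := by
      funext p
      by_cases hp : p.1 ∈ Icc (p.2 - s) (p.2 + s)
      · rw [indicator_of_mem hp, indicator_of_mem (show p ∈ {p : ℝ × ℝ | p.2 - s ≤ p.1 ∧ p.1 ≤ p.2 + s} from hp)]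
        rfl
      · rw [indicator_of_notMem hp, indicator_of_notMem (show p ∉ {p : ℝ × ℝ | p.2 - s ≤ p.1 ∧ p.1 ≤ p.2 + s} from hp)]
    rw [e]; exact h1
  -- average over windows
  have a1 : ENNReal.ofReal (2 * s) * ∫⁻ z, ENNReal.ofReal (X.W s (x - z)) * v z ≤
      ∫⁻ z0, 9 * ENNReal.ofReal (X.W s (x - z0)) * ∫⁻ z in Icc (z0 - s) (z0 + s), v z := by
    have hmz : Measurable fun z => ENNReal.ofReal (X.W s (x - z)) * v z :=
      (ENNReal.measurable_ofReal.comp ((W_meas s).comp (by fun_prop))).mul hvm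
    calc ENNReal.ofReal (2 * s) * ∫⁻ z, ENNReal.ofReal (X.W s (x - z)) * v z
        = ∫⁻ z, ∫⁻ z0, (indicator (Icc (z - s) (z + s)) (fun _ => ENNReal.ofReal (X.W s (x - z)) * v z) z0) := by
          rw [← lintegral_const_mul _ hmz]
          refine lintegral_congr fun z => ?_
          rw [lintegral_indicator measurableSet_Icc, setLIntegral_const, Real.volume_Icc, mul_comm]
          congr 2
          ring
      _ ≤ ∫⁻ z, ∫⁻ z0, 9 * ENNReal.ofReal (X.W s (x - z0)) * (indicator (Icc (z0 - s) (z0 + s)) v z) := by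
          refine lintegral_mono fun z => lintegral_mono fun z0 => ?_
          by_cases hz : z0 ∈ Icc (z - s) (z + s)
          · have hz2 : z ∈ Icc (z0 - s) (z0 + s) := ⟨by linarith [hz.2], by linarith [hz.1]⟩
            rw [indicator_of_mem hz, indicator_of_mem hz2]
            refine mul_le_mul_left ?_ _
            have h9 : (9:ℝ≥0∞) = ENNReal.ofReal 9 := by simp
            rw [h9, ← ENNReal.ofReal_mul (by norm_num)]
            refine ENNReal.ofReal_le_ofReal ?_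
            exact W_near hs0 le_rfl (by rw [abs_le]; constructor <;> linarith [hz.1, hz.2])
          · rw [indicator_of_notMem hz]
            positivity
      _ = ∫⁻ z0, ∫⁻ z, 9 * ENNReal.ofReal (X.W s (x - z0)) * (indicator (Icc (z0 - s) (z0 + s)) v z) := by
          refine lintegral_lintegral_swap ?_
          refine Measurable.aemeasurable ?_
          exact ((hm9.comp measurable_snd).mul hind)
      _ = _ := by
          refine lintegral_congr fun z0 => ?_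
          rw [lintegral_const_mul _ (hvm.indicator measurableSet_Icc), lintegral_indicator measurableSet_Icc]
  -- insert the local mass bound
  have a2 : ∫⁻ z0, 9 * ENNReal.ofReal (X.W s (x - z0)) * ∫⁻ z in Icc (z0 - s) (z0 + s), v z ≤
      (9 * ENNReal.ofReal (C1 * s)) * ∫⁻ z0, ∫⁻ y, (ENNReal.ofReal (X.W s (x - z0)) *
        ENNReal.ofReal (X.W s (z0 - y))) * ‖ev h y t1‖ₑ ^ 2 := by
    rw [← lintegral_const_mul _ (hm3.lintegral_prod_right')]
    refine lintegral_mono fun z0 => ?_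
    have h1 := hmass s z0 t1 t h hs hh ht
    have h2 : ENNReal.ofReal (C1 * (s * Es s z0 t1 h)) =
        ENNReal.ofReal (C1 * s) * ∫⁻ y, ENNReal.ofReal (X.W s (z0 - y)) * ‖ev h y t1‖ₑ ^ 2 := by
      rw [Es_lint hs0 z0 t1 hh, ← ENNReal.ofReal_mul (by positivity), mul_assoc]
    rw [h2] at h1
    have hm4 : Measurable fun y => ENNReal.ofReal (X.W s (z0 - y)) * ‖ev h y t1‖ₑ ^ 2 :=
      (ENNReal.measurable_ofReal.comp ((W_meas s).comp (by fun_prop))).mul hfm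
    calc 9 * ENNReal.ofReal (X.W s (x - z0)) * ∫⁻ z in Icc (z0 - s) (z0 + s), v z
        ≤ 9 * ENNReal.ofReal (X.W s (x - z0)) * (ENNReal.ofReal (C1 * s) *
            ∫⁻ y, ENNReal.ofReal (X.W s (z0 - y)) * ‖ev h y t1‖ₑ ^ 2) := mul_le_mul_right h1 _
      _ = (9 * ENNReal.ofReal (C1 * s)) * (ENNReal.ofReal (X.W s (x - z0)) *
            ∫⁻ y, ENNReal.ofReal (X.W s (z0 - y)) * ‖ev h y t1‖ₑ ^ 2) := by ring
      _ = _ := by
          rw [← lintegral_const_mul _ hm4]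
          congr 1
          refine lintegral_congr fun y => ?_
          rw [mul_assoc]
  have a3 : ∫⁻ z0, ∫⁻ y, (ENNReal.ofReal (X.W s (x - z0)) * ENNReal.ofReal (X.W s (z0 - y))) *
        ‖ev h y t1‖ₑ ^ 2 ≤ 64 * ENNReal.ofReal (Es s x t1 h) := by
    rw [lintegral_lintegral_swap hm3.aemeasurable, ← Es_lint hs0 x t1 hh]
    have hm5 : Measurable fun y => ENNReal.ofReal (X.W s (x - y)) * ‖ev h y t1‖ₑ ^ 2 :=
      (ENNReal.measurable_ofReal.comp ((W_meas s).comp (by fun_prop))).mul hfm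
    rw [← lintegral_const_mul _ hm5]
    refine lintegral_mono fun y => ?_
    have hm6 : Measurable fun z0 => ENNReal.ofReal (X.W s (x - z0)) * ENNReal.ofReal (X.W s (z0 - y)) :=
      (ENNReal.measurable_ofReal.comp ((W_meas s).comp (by fun_prop))).mul
        (ENNReal.measurable_ofReal.comp ((W_meas s).comp (by fun_prop)))
    rw [lintegral_mul_const _ hm6]
    calc _ ≤ (ENNReal.ofReal (X.W s (x - y)) * 64) * ‖ev h y t1‖ₑ ^ 2 := mul_le_mul_left (W_conv hs0 x y) _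
      _ = _ := by ring
  have a4 : ENNReal.ofReal (2 * s) * ∫⁻ z, ENNReal.ofReal (X.W s (x - z)) * v z ≤
      ENNReal.ofReal (2 * s) * ENNReal.ofReal (288 * C1 * Es s x t1 h) := by
    refine (a1.trans a2).trans ?_
    refine (mul_le_mul_right a3 _).trans (le_of_eq ?_)
    have h9 : (9:ℝ≥0∞) = ENNReal.ofReal 9 := by simp
    have h64 : (64:ℝ≥0∞) = ENNReal.ofReal 64 := by simp
    rw [h9, h64, ← ENNReal.ofReal_mul (by norm_num), ← ENNReal.ofReal_mul (by norm_num),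
      ← ENNReal.ofReal_mul (by positivity), ← ENNReal.ofReal_mul (by positivity)]
    congr 1
    ring
  have hpos : ENNReal.ofReal (2 * s) ≠ 0 := by
    rw [Ne, ENNReal.ofReal_eq_zero]; linarith
  exact (ENNReal.mul_le_mul_iff_right hpos ENNReal.ofReal_ne_top).1 a4

theorem Es_shift {s : ℝ} (hs : 0 < s) {x x0 t1 : ℝ} {h : ℝ → ℂ} (hh : Integrable h)
    (hx : |x - x0| ≤ 4 * s) : Es s x t1 h ≤ 1156 * Es s x0 t1 h := by
  have hi := H972.integrable_W_sol hs hh x t1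
  have hi0 := H972.integrable_W_sol hs hh x0 t1
  simp_rw [sol_eq_ev] at hi hi0
  unfold Es
  rw [← integral_const_mul]
  refine integral_mono hi (hi0.const_mul _) fun y => ?_
  show X.W s (x - y) * ‖ev h y t1‖ ^ 2 ≤ 1156 * (X.W s (x0 - y) * ‖ev h y t1‖ ^ 2)
  rw [← mul_assoc]
  refine mul_le_mul_of_nonneg_right ?_ (by positivity)
  have h1 := H972.W_sub_le hs (x0 - y) (x0 - x)
  have h2 : x0 - y - (x0 - x) = x - y := by ring
  rw [h2] at h1
  refine h1.trans (mul_le_mul_of_nonneg_right ?_ (H972.W_nonneg hs _))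
  have h3 : (x0 - x) ^ 2 / s ^ 2 ≤ 16 := by
    rw [div_le_iff₀ (by positivity), ← neg_sub, neg_sq, ← sq_abs]
    have := pow_le_pow_left₀ (abs_nonneg _) hx 2
    nlinarith
  have h4 : (1 + (x0 - x) ^ 2 / s ^ 2) ^ 2 ≤ 17 ^ 2 := by
    refine pow_le_pow_left₀ (by positivity) (by linarith) 2
  linarith

/-- **StBern** of `X/Spec.lean` -/
theorem stBern : X.StBern := by
  intro B hB ψ hψ
  obtain ⟨C1, R0, hC1, hR0, hl⟩ := locE hB hψ
  obtain ⟨C2, hC2, hW⟩ := H972.stEnW B hB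
  obtain ⟨hsm, hcp⟩ := hψ
  set ψc : ℝ → ℂ := fun ξ => (ψ ξ : ℂ) with hψc
  have hsc : ContDiff ℝ ∞ ψc := by
    exact (Complex.ofRealCLM.contDiff).comp (hsm.of_le (by simp))
  have hcc : HasCompactSupport ψc := hcp.comp_left (g := fun x : ℝ => (x : ℂ)) (by simp)
  obtain ⟨C3, hC3, hp⟩ := Es_prop ψc hsc hcc
  have hc := c0_pos
  have hB0 : 0 < B := by linarith
  refine ⟨3 * C1 + C2 * (C3 * (1156 * (9 * B / c0))), by positivity, ?_⟩
  intro s hs x₀ t₁ x t hx ht h hh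
  have hs0 : 0 < s := by linarith
  have hE0 := En_nonneg' hB hs0 hh.1 x₀ t₁
  obtain ⟨bψ, hbψ⟩ := hsc.continuous.bounded_above_of_compact_support hcc
  have hgood : X.Good (fun ξ => ψ ξ * h ξ) := by
    refine ⟨hh.1.bdd_mul (c := bψ) hsc.continuous.aestronglyMeasurable (Eventually.of_forall hbψ), ?_⟩
    have hm : AEStronglyMeasurable (fun ξ => ψc ξ * h ξ) :=
      hsc.continuous.aestronglyMeasurable.mul hh.2.1
    refine (hh.2.const_mul (bψ : ℂ)).mono hm (Eventually.of_forall fun ξ => ?_)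
    have hb0 : 0 ≤ bψ := (norm_nonneg _).trans (hbψ 0)
    rw [norm_mul, norm_mul, Complex.norm_of_nonneg hb0]
    gcongr
    exact hbψ ξ
  constructor
  · obtain ⟨G, hG, hGψ, hGm, hGe⟩ := hl s hs x₀ t₁ h hh.1
    obtain ⟨p1, p2⟩ := hGe x t hx ht
    have hsi : s⁻¹ ≤ 1 := inv_le_one_of_one_le₀ hs
    have hsi4 : s⁻¹ ^ 4 ≤ 1 := pow_le_one₀ (by positivity) hsi
    set E := X.En B s x₀ t₁ h with hE
    have h1 : s⁻¹ ^ 4 * E ≤ s * E := by
      refine mul_le_mul_of_nonneg_right ?_ hE0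
      linarith
    have h2 : 0 ≤ C2 * (C3 * (1156 * (9 * B / c0))) * s * E := by positivity
    calc ‖X.sol (fun ξ => ψ ξ * h ξ) x t‖ ^ 2 ≤ 2 * (C1 * (s * E)) + C1 * (s * E) := by
          refine p2.trans (add_le_add (by linarith) ?_)
          gcongr
      _ ≤ (3 * C1 + C2 * (C3 * (1156 * (9 * B / c0)))) * s * E := by linarith
  · have h1 := (hW s hs0 _ hgood x t).2
    have h2 : (∫ y, X.W s (x - y) * ‖X.sol (fun ξ => ψ ξ * h ξ) y t‖ ^ 2) = Es s x t (fun ξ => ψc ξ * h ξ) := by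
      unfold Es
      simp_rw [sol_eq_ev]
      rfl
    rw [h2] at h1
    have h3 := hp s x t₁ t h hs hh.1 ht
    have h4 := Es_shift hs0 hh.1 (t1 := t₁) hx
    have h5 := Es_le_En hB hs0 hh.1 x₀ t₁
    have h6 : Es s x t₁ h ≤ 1156 * (9 * B / c0 * X.En B s x₀ t₁ h) := h4.trans (by gcongr)
    calc X.En B s x t (fun ξ => ψ ξ * h ξ) ≤ C2 * (C3 * (1156 * (9 * B / c0 * X.En B s x₀ t₁ h))) := by
          refine h1.trans ?_
          gcongr
          exact h3.trans (by gcongr)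
      _ = (C2 * (C3 * (1156 * (9 * B / c0)))) * X.En B s x₀ t₁ h := by ring
      _ ≤ _ := by
          refine mul_le_mul_of_nonneg_right ?_ hE0
          linarith

end

end Vale.Agent.P076.H40
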