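import Vale.Agent.P076.H40.Loc
import Vale.Agent.P076.X.Spec

/-!
# P076 / X.BIL : `StCount2`, `StCount` (helper40)
-/

open MeasureTheory Complex Set Filter Topology FourierTransform
open scoped ENNReal ContDiff

namespace Vale.Agent.P076.H40

open Vale.Agent.P076

noncomputable section

/-! ### lower bound of the local energy -/

/-- mass of the Gaussian in `|v| ≤ s` -/
def c0 : ℝ := ∫ w in Icc (-1 : ℝ) 1, Real.sqrt 2 * Real.exp (-(2 * Real.pi) * w ^ 2)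

theorem c0_pos : 0 < c0 := by
  unfold c0
  have h : ∫ w in Icc (-1 : ℝ) 1, Real.sqrt 2 * Real.exp (-(2 * Real.pi)) ≤
      ∫ w in Icc (-1 : ℝ) 1, Real.sqrt 2 * Real.exp (-(2 * Real.pi) * w ^ 2) := by
    refine setIntegral_mono_on (integrableOn_const (by simp)) ?_ measurableSet_Icc ?_
    · exact (Continuous.continuousOn (by fun_prop)).integrableOn_Icc
    · intro w hw
      gcongr
      have : w ^ 2 ≤ 1 := by nlinarith [hw.1, hw.2]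
      nlinarith [Real.pi_pos]
  refine lt_of_lt_of_le ?_ h
  rw [setIntegral_const]
  simp only [measureReal_def, Real.volume_Icc, smul_eq_mul]
  have : (0:ℝ) < (ENNReal.ofReal (1 - -1)).toReal := by norm_num
  positivity

theorem W_near {r s x y z : ℝ} (hr : 0 < r) (hsr : s ≤ r) (h : |y - z| ≤ s) :
    X.W r (x - z) ≤ 9 * X.W r (x - y) := by
  rw [W_eq' hr, W_eq' hr]
  have h1 : (y - z) ^ 2 ≤ r ^ 2 := by
    rw [← sq_abs]
    exact pow_le_pow_left₀ (abs_nonneg _) (h.trans hsr) 2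
  have h2 : r ^ 2 + (x - y) ^ 2 ≤ 3 * (r ^ 2 + (x - z) ^ 2) := by
    have e : x - y = (x - z) - (y - z) := by ring
    rw [e]
    nlinarith [sq_nonneg ((x - z) + (y - z)), sq_nonneg (x - z)]
  have hc : 0 ≤ 2 * r ^ 3 / Real.pi := by positivity
  rw [← mul_div_assoc, div_le_div_iff₀ (by positivity) (by positivity)]
  have h3 : (r ^ 2 + (x - y) ^ 2) ^ 2 ≤ 9 * (r ^ 2 + (x - z) ^ 2) ^ 2 := by
    have := pow_le_pow_left₀ (by positivity) h2 2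
    nlinarith
  calc 2 * r ^ 3 / Real.pi * (r ^ 2 + (x - y) ^ 2) ^ 2 ≤ 2 * r ^ 3 / Real.pi * (9 * (r ^ 2 + (x - z) ^ 2) ^ 2) := by
        gcongr
    _ = 9 * (2 * r ^ 3 / Real.pi) * (r ^ 2 + (x - z) ^ 2) ^ 2 := by ring

theorem W_le_scale {B s : ℝ} (hB : 1 ≤ B) (hs : 0 < s) (u : ℝ) : X.W s u ≤ B * X.W (B * s) u := by
  unfold X.W
  have hB0 : 0 < B := by linarith
  have h1 : B * (2 / (Real.pi * (B * s)) * ((1 + u ^ 2 / (B * s) ^ 2) ^ 2)⁻¹) =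
      2 / (Real.pi * s) * ((1 + u ^ 2 / (B * s) ^ 2) ^ 2)⁻¹ := by
    field_simp
  rw [h1]
  gcongr
  nlinarith

theorem Wr_ge {B s : ℝ} (hB : 1 ≤ B) (hs : 0 < s) (x z : ℝ) :
    c0 / (9 * B) * X.W s (x - z) ≤ H972.Wr (B * s) s x z := by
  have hB0 : 0 < B := by linarith
  have hBs : 0 < B * s := by positivity
  have hsB : s ≤ B * s := by nlinarith
  have hI : Integrable fun y => X.W (B * s) (x - y) * H972.rho s (y - z) := by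
    have h1 : Integrable fun y => H972.rho s (y - z) := (H972.integrable_rho hs).comp_sub_right z
    refine h1.bdd_mul (c := 2 / (Real.pi * (B * s))) ?_ (Eventually.of_forall fun y => ?_)
    · exact ((H972.continuous_W (B * s)).comp (by fun_prop)).aestronglyMeasurable
    · rw [Real.norm_of_nonneg (H972.W_nonneg hBs _)]
      unfold X.W
      refine mul_le_of_le_one_right (by positivity) ?_
      refine inv_le_one_of_one_le₀ ?_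
      have : 0 ≤ (x - y) ^ 2 / (B * s) ^ 2 := by positivity
      nlinarith
  unfold H972.Wr
  have hW := W_le_scale hB hs (x - z)
  have step : X.W (B * s) (x - z) / 9 * ∫ y in Icc (z - s) (z + s), H972.rho s (y - z) ≤
      ∫ y, X.W (B * s) (x - y) * H972.rho s (y - z) := by
    rw [← integral_const_mul]
    refine le_trans ?_ (setIntegral_le_integral hI (Eventually.of_forall fun y =>
      mul_nonneg (H972.W_nonneg hBs _) (H972.rho_nonneg hs _)) (s := Icc (z - s) (z + s)))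
    refine setIntegral_mono_on ?_ hI.integrableOn measurableSet_Icc fun y hy => ?_
    · exact (((H972.integrable_rho hs).comp_sub_right z).const_mul _).integrableOn
    · refine mul_le_mul_of_nonneg_right ?_ (H972.rho_nonneg hs _)
      have : |y - z| ≤ s := by rw [abs_le]; constructor <;> linarith [hy.1, hy.2]
      linarith [W_near hBs hsB (x := x) this]
  have e1 : ∫ y in Icc (z - s) (z + s), H972.rho s (y - z) = c0 := by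
    unfold c0 H972.rho
    rw [integral_Icc_eq_integral_Ioc, integral_Icc_eq_integral_Ioc,
      ← intervalIntegral.integral_of_le (by linarith), ← intervalIntegral.integral_of_le (by norm_num)]
    have e2 : (∫ y in (z - s)..(z + s), Real.sqrt 2 / s * Real.exp (-(2 * Real.pi / s ^ 2) * (y - z) ^ 2)) =
        ∫ y in (z - s)..(z + s), s⁻¹ * (fun w => Real.sqrt 2 * Real.exp (-(2 * Real.pi) * w ^ 2)) (y / s - z / s) := by
      refine intervalIntegral.integral_congr fun y _ => ?_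
      show Real.sqrt 2 / s * Real.exp (-(2 * Real.pi / s ^ 2) * (y - z) ^ 2) =
        s⁻¹ * (Real.sqrt 2 * Real.exp (-(2 * Real.pi) * (y / s - z / s) ^ 2))
      have : -(2 * Real.pi / s ^ 2) * (y - z) ^ 2 = -(2 * Real.pi) * (y / s - z / s) ^ 2 := by
        field_simp
      rw [this]; ring
    rw [e2, intervalIntegral.integral_const_mul,
      intervalIntegral.integral_comp_div_sub (fun w => Real.sqrt 2 * Real.exp (-(2 * Real.pi) * w ^ 2)) hs.ne' (z / s)]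
    have e3 : (z - s) / s - z / s = -1 := by field_simp; ring
    have e4 : (z + s) / s - z / s = 1 := by field_simp; ring
    rw [e3, e4, smul_eq_mul, ← mul_assoc, inv_mul_cancel₀ hs.ne', one_mul]
  rw [e1] at step
  refine le_trans ?_ step
  have hc := c0_pos
  rw [div_mul_eq_mul_div, div_le_iff₀ (by positivity)]
  calc c0 * X.W s (x - z) ≤ c0 * (B * X.W (B * s) (x - z)) := by gcongr
    _ = X.W (B * s) (x - z) / 9 * c0 * (9 * B) := by ring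

theorem Es_le_En {B s : ℝ} (hB : 1 ≤ B) (hs : 0 < s) {g : ℝ → ℂ} (hg : Integrable g) (x t : ℝ) :
    Es s x t g ≤ 9 * B / c0 * X.En B s x t g := by
  have hB0 : 0 < B := by linarith
  have hBs : 0 < B * s := by positivity
  have hc := c0_pos
  rw [H972.En_eq_Wr hB0 hs hg, ← integral_const_mul]
  unfold Es
  have hi := H972.integrable_W_sol hs hg x t
  have hi2 := (H972.ener2 (H972.integrable_Gt hg t) (H972.integrable_Wr hBs hs x)).1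
  simp_rw [← H972.sol_eq] at hi2
  simp_rw [sol_eq_ev] at hi hi2 ⊢
  refine integral_mono hi (hi2.const_mul _) fun z => ?_
  show X.W s (x - z) * ‖ev g z t‖ ^ 2 ≤ 9 * B / c0 * (H972.Wr (B * s) s x z * ‖ev g z t‖ ^ 2)
  rw [← mul_assoc]
  refine mul_le_mul_of_nonneg_right ?_ (by positivity)
  have := Wr_ge hB hs x z
  calc X.W s (x - z) = 9 * B / c0 * (c0 / (9 * B) * X.W s (x - z)) := by field_simp
    _ ≤ _ := by gcongr

theorem En_nonneg' {B s : ℝ} (hB : 1 ≤ B) (hs : 0 < s) {g : ℝ → ℂ} (hg : Integrable g) (x t : ℝ) :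
    0 ≤ X.En B s x t g := by
  have h1 := Es_le_En hB hs hg x t
  have h2 := Es_nonneg hs x t g
  have hc := c0_pos
  have h3 : 0 < 9 * B / c0 := by positivity
  by_contra hcon
  have h4 : 9 * B / c0 * X.En B s x t g < 0 := mul_neg_of_pos_of_neg h3 (not_le.1 hcon)
  linarith

/-- Bernstein for a compactly supported profile -/
theorem bern_pf {G : ℝ → ℂ} {R0 : ℝ} (hG : Pf G R0) (x t : ℝ) :
    ‖ev G x t‖ₑ ^ 2 ≤ ENNReal.ofReal (2 * R0) * ∫⁻ ξ, ‖G ξ‖ₑ ^ 2 := by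
  have h1 : ‖ev G x t‖ₑ ≤ ∫⁻ ξ, (indicator (Icc (-R0) R0) (fun _ => (1 : ℝ≥0∞)) ξ) * ‖G ξ‖ₑ := by
    unfold ev
    refine (enorm_integral_le_lintegral_enorm _).trans (lintegral_mono fun ξ => ?_)
    rw [enorm_mul, enorm_ee, mul_one]
    by_cases h : G ξ = 0
    · rw [h]; simp
    · rw [indicator_of_mem (show ξ ∈ Icc (-R0) R0 from abs_le.1 (hG.supp ξ h)), one_mul]
  have hm : Measurable (indicator (Icc (-R0) R0) (fun _ => (1 : ℝ≥0∞))) :=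
    measurable_const.indicator measurableSet_Icc
  calc ‖ev G x t‖ₑ ^ 2 ≤ (∫⁻ ξ, (indicator (Icc (-R0) R0) (fun _ => (1 : ℝ≥0∞)) ξ) * ‖G ξ‖ₑ) ^ 2 := by
        gcongr
    _ ≤ (∫⁻ ξ, indicator (Icc (-R0) R0) (fun _ => (1 : ℝ≥0∞)) ξ) *
        ∫⁻ ξ, (indicator (Icc (-R0) R0) (fun _ => (1 : ℝ≥0∞)) ξ) * ‖G ξ‖ₑ ^ 2 :=
        cs_w volume hm.aemeasurable hG.meas.enorm.aemeasurable
    _ ≤ _ := by
        gcongr
        · rw [lintegral_indicator measurableSet_Icc, setLIntegral_const, one_mul, Real.volume_Icc]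
          refine ENNReal.ofReal_le_ofReal (by linarith)
        · refine mul_le_of_le_one_left (by positivity) ?_
          by_cases h : ξ ∈ Icc (-R0) R0
          · rw [indicator_of_mem h]
          · rw [indicator_of_notMem h]; exact zero_le_one

/-- localisation in terms of the local energy -/
theorem locE {B : ℝ} (hB : 1 ≤ B) {ψ : ℝ → ℝ} (hψ : X.Bump ψ) : ∃ C R0 : ℝ, 1 ≤ C ∧ 0 ≤ R0 ∧
    ∀ s : ℝ, 1 ≤ s → ∀ x0 t1 : ℝ, ∀ h : ℝ → ℂ, Integrable h → ∃ G : ℝ → ℂ, Pf G R0 ∧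
    (∀ ξ, G ξ ≠ 0 → ψ ξ ≠ 0) ∧
    ∫⁻ ξ, ‖G ξ‖ₑ ^ 2 ≤ ENNReal.ofReal (C * (s * X.En B s x0 t1 h)) ∧
    ∀ x t : ℝ, |x - x0| ≤ 4 * s → |t - t1| ≤ 4 * s →
      ‖ev G x t‖ ^ 2 ≤ C * (s * X.En B s x0 t1 h) ∧
      ‖X.sol (fun ξ => ψ ξ * h ξ) x t‖ ^ 2 ≤ 2 * ‖ev G x t‖ ^ 2 + C * (s⁻¹ ^ 4 * X.En B s x0 t1 h) := by
  obtain ⟨hsm, hcp⟩ := hψ
  set ψc : ℝ → ℂ := fun ξ => (ψ ξ : ℂ) with hψc
  have hsc : ContDiff ℝ ∞ ψc := by
    exact (Complex.ofRealCLM.contDiff).comp (hsm.of_le (by simp))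
  have hcc : HasCompactSupport ψc := hcp.comp_left (g := fun x : ℝ => (x : ℂ)) (by simp)
  obtain ⟨R, hR⟩ : ∃ R : ℝ, ∀ ξ ∈ tsupport ψc, |ξ| ≤ R := by
    obtain ⟨R, hR⟩ := hcc.isCompact.isBounded.subset_closedBall 0
    refine ⟨R, fun ξ hξ => ?_⟩
    have := hR hξ
    simpa using this
  have hR0 : (0:ℝ) ≤ max R 0 := le_max_right _ _
  obtain ⟨C1, hC1, hloc⟩ := loc ψc hsc hcc (max R 0) (fun ξ hξ => (hR ξ hξ).trans (le_max_left _ _)) hR0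
  have hc := c0_pos
  have hB0 : 0 < B := by linarith
  set D : ℝ := 9 * B / c0 with hD
  have hD0 : 0 < D := by rw [hD]; positivity
  refine ⟨1 + 2 * (C1 * D) + 2 * max R 0 * (C1 * D), max R 0, ?_, hR0, ?_⟩
  · have : 0 ≤ 2 * (C1 * D) + 2 * max R 0 * (C1 * D) := by positivity
    linarith
  intro s hs x0 t1 h hh
  have hs0 : 0 < s := by linarith
  obtain ⟨G, hG, hGψ, hGm, hGe⟩ := hloc s x0 t1 h hs hh
  have hE0 := Es_nonneg hs0 x0 t1 h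
  have hEE := Es_le_En hB hs0 hh x0 t1
  have hN0 := En_nonneg' hB hs0 hh x0 t1
  set E := X.En B s x0 t1 h with hE
  rw [← hD] at hEE
  have hkey : ∀ u : ℝ, 0 ≤ u → C1 * (u * Es s x0 t1 h) ≤ (C1 * D) * (u * E) := by
    intro u hu
    calc C1 * (u * Es s x0 t1 h) ≤ C1 * (u * (D * E)) := by gcongr
      _ = (C1 * D) * (u * E) := by ring
  refine ⟨G, hG, fun ξ hξ => ?_, ?_, ?_⟩
  · have := hGψ ξ hξ
    simpa [hψc] using this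
  · refine hGm.trans (ENNReal.ofReal_le_ofReal ?_)
    refine (hkey s hs0.le).trans ?_
    have h1 : 0 ≤ s * E := by positivity
    have h2 : 0 ≤ 2 * max R 0 * (C1 * D) * (s * E) := by positivity
    have h3 : 0 ≤ (C1 * D) * (s * E) := by positivity
    nlinarith
  · intro x t hx ht
    have b1 : ‖ev G x t‖ ^ 2 ≤ 2 * max R 0 * ((C1 * D) * (s * E)) := by
      have h1 := bern_pf hG x t
      have h2 : ‖ev G x t‖ₑ ^ 2 ≤ ENNReal.ofReal (2 * max R 0 * ((C1 * D) * (s * E))) := by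
        refine h1.trans ?_
        have e : ENNReal.ofReal (2 * max R 0 * ((C1 * D) * (s * E))) =
            ENNReal.ofReal (2 * max R 0) * ENNReal.ofReal ((C1 * D) * (s * E)) :=
          ENNReal.ofReal_mul (by positivity)
        rw [e]
        exact mul_le_mul_right (hGm.trans (ENNReal.ofReal_le_ofReal (hkey s hs0.le))) _
      rw [← ofReal_norm, ← ENNReal.ofReal_pow (norm_nonneg _)] at h2
      exact (ENNReal.ofReal_le_ofReal_iff (by positivity)).1 h2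
    have b2 : ‖ev (fun ξ => ψc ξ * h ξ) x t - ev G x t‖ ^ 2 ≤ (C1 * D) * (s⁻¹ ^ 4 * E) := by
      have h2 := (hGe x t hx ht).trans (ENNReal.ofReal_le_ofReal (hkey (s⁻¹ ^ 4) (by positivity)))
      rw [← ofReal_norm, ← ENNReal.ofReal_pow (norm_nonneg _)] at h2
      exact (ENNReal.ofReal_le_ofReal_iff (by positivity)).1 h2
    have h4 : 0 ≤ (C1 * D) * (s * E) := by positivity
    have h5 : 0 ≤ 2 * max R 0 * (C1 * D) * (s⁻¹ ^ 4 * E) := by positivity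
    have h6 : 0 ≤ (C1 * D) * (s⁻¹ ^ 4 * E) := by positivity
    have h7 : 0 ≤ s * E := by positivity
    have h8 : 0 ≤ s⁻¹ ^ 4 * E := by positivity
    constructor
    · nlinarith
    · rw [sol_eq_ev]
      show ‖ev (fun ξ => ψc ξ * h ξ) x t‖ ^ 2 ≤ _
      have h9 : ‖ev (fun ξ => ψc ξ * h ξ) x t‖ ≤ ‖ev G x t‖ + ‖ev (fun ξ => ψc ξ * h ξ) x t - ev G x t‖ := by
        have := norm_add_le (ev G x t) (ev (fun ξ => ψc ξ * h ξ) x t - ev G x t)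
        rwa [add_sub_cancel] at this
      have h10 : ‖ev (fun ξ => ψc ξ * h ξ) x t‖ ^ 2 ≤
          2 * ‖ev G x t‖ ^ 2 + 2 * ‖ev (fun ξ => ψc ξ * h ξ) x t - ev G x t‖ ^ 2 := by
        refine (pow_le_pow_left₀ (norm_nonneg _) h9 2).trans ?_
        nlinarith [sq_nonneg (‖ev G x t‖ - ‖ev (fun ξ => ψc ξ * h ξ) x t - ev G x t‖)]
      nlinarith

/-- separated points in a square -/
theorem card_sq {E : Finset (ℝ × ℝ)} (hE : Sep E) {s x0 t1 : ℝ} (hs : 1 ≤ s)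
    (h : ∀ z ∈ E, |z.1 - x0| ≤ 4 * s ∧ |z.2 - t1| ≤ 4 * s) : (E.card : ℝ) ≤ 100 * s ^ 2 := by
  have h1 : E.card ≤ ((Finset.Icc ⌊x0 - 4 * s⌋ ⌊x0 + 4 * s⌋) ×ˢ (Finset.Icc ⌊t1 - 4 * s⌋ ⌊t1 + 4 * s⌋)).card := by
    refine Finset.card_le_card_of_injOn (fun z => ((⌊z.1⌋ : ℤ), (⌊z.2⌋ : ℤ))) ?_ hE.inj
    intro z hz
    obtain ⟨h2, h3⟩ := h z hz
    rw [abs_le] at h2 h3
    simp only [Finset.coe_product, Finset.coe_Icc, Set.mem_prod, Set.mem_Icc]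
    exact ⟨⟨Int.floor_le_floor (by linarith), Int.floor_le_floor (by linarith)⟩,
      ⟨Int.floor_le_floor (by linarith), Int.floor_le_floor (by linarith)⟩⟩
  have h2 : ∀ c : ℝ, (((Finset.Icc ⌊c - 4 * s⌋ ⌊c + 4 * s⌋).card : ℕ) : ℝ) ≤ 10 * s := by
    intro c
    rw [Int.card_Icc]
    have h3 : ⌊c - 4 * s⌋ ≤ ⌊c + 4 * s⌋ := Int.floor_le_floor (by linarith)
    have h4 : ((⌊c + 4 * s⌋ + 1 - ⌊c - 4 * s⌋).toNat : ℤ) = ⌊c + 4 * s⌋ + 1 - ⌊c - 4 * s⌋ :=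
      Int.toNat_of_nonneg (by linarith)
    have h5 : (((⌊c + 4 * s⌋ + 1 - ⌊c - 4 * s⌋).toNat : ℕ) : ℝ) =
        ((⌊c + 4 * s⌋ + 1 - ⌊c - 4 * s⌋ : ℤ) : ℝ) := by
      exact_mod_cast congrArg (fun n : ℤ => (n : ℝ)) h4
    rw [h5]
    push_cast
    have h6 := Int.floor_le (c + 4 * s)
    have h7 := Int.lt_floor_add_one (c - 4 * s)
    linarith
  rw [Finset.card_product] at h1
  calc (E.card : ℝ) ≤ (((Finset.Icc ⌊x0 - 4 * s⌋ ⌊x0 + 4 * s⌋).card *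
        (Finset.Icc ⌊t1 - 4 * s⌋ ⌊t1 + 4 * s⌋).card : ℕ) : ℝ) := by exact_mod_cast h1
    _ ≤ (10 * s) * (10 * s) := by
        push_cast
        exact mul_le_mul (h2 _) (h2 _) (by positivity) (by positivity)
    _ = 100 * s ^ 2 := by ring

theorem stCount2' : ∀ B : ℝ, 1 ≤ B → ∀ ψ₁ ψ₂ : ℝ → ℝ, X.Bump ψ₁ → X.Bump ψ₂ →
    ∀ δ : ℝ, 0 < δ → (∀ ξ ξ', ψ₁ ξ ≠ 0 → ψ₂ ξ' ≠ 0 → δ ≤ |ξ - ξ'|) → ∃ C : ℝ, 1 ≤ C ∧
    ∀ s : ℝ, 1 ≤ s → ∀ x₀ t₁ α : ℝ, 0 ≤ α →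
    ∀ h₁ h₂ : ℝ → ℂ, Integrable h₁ → Integrable h₂ → ∀ E : Finset (ℝ × ℝ), Sep E →
    (∀ z ∈ E, |z.1 - x₀| ≤ 4 * s ∧ |z.2 - t₁| ≤ 4 * s ∧
      α ≤ ‖X.sol (fun ξ => ψ₁ ξ * h₁ ξ) z.1 z.2‖ ∧ α ≤ ‖X.sol (fun ξ => ψ₂ ξ * h₂ ξ) z.1 z.2‖) →
    α ^ 4 * E.card ≤ C * s ^ 2 * (X.En B s x₀ t₁ h₁ * X.En B s x₀ t₁ h₂) := by
  intro B hB ψ₁ ψ₂ hψ₁ hψ₂ δ hδ hsep
  obtain ⟨C1, R1, hC1, hR1, hl1⟩ := locE hB hψ₁
  obtain ⟨C2, R2, hC2, hR2, hl2⟩ := locE hB hψ₂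
  obtain ⟨Cb, hCb, hbil⟩ := bil_disc (max R1 R2) δ hδ
  refine ⟨1 + 4 * Cb * C1 * C2 + 500 * C1 * C2, ?_, ?_⟩
  · have : 0 ≤ 4 * Cb * C1 * C2 + 500 * C1 * C2 := by positivity
    linarith
  intro s hs x₀ t₁ α hα h₁ h₂ hh₁ hh₂ E hE hz
  have hs0 : 0 < s := by linarith
  obtain ⟨G1, hG1, hG1ψ, hG1m, hG1e⟩ := hl1 s hs x₀ t₁ h₁ hh₁
  obtain ⟨G2, hG2, hG2ψ, hG2m, hG2e⟩ := hl2 s hs x₀ t₁ h₂ hh₂
  have hE1 := En_nonneg' hB hs0 hh₁ x₀ t₁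
  have hE2 := En_nonneg' hB hs0 hh₂ x₀ t₁
  set E1 := X.En B s x₀ t₁ h₁ with hE1d
  set E2 := X.En B s x₀ t₁ h₂ with hE2d
  have hG1' : Pf G1 (max R1 R2) := ⟨hG1.meas, hG1.bdd, fun ξ hξ => (hG1.supp ξ hξ).trans (le_max_left _ _)⟩
  have hG2' : Pf G2 (max R1 R2) := ⟨hG2.meas, hG2.bdd, fun ξ hξ => (hG2.supp ξ hξ).trans (le_max_right _ _)⟩
  have hb := hbil G1 G2 hG1' hG2' (fun ξ η h1 h2 => hsep ξ η (hG1ψ ξ h1) (hG2ψ η h2)) E hE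
  have hb2 : ∑ z ∈ E, ‖ev G1 z.1 z.2‖ ^ 2 * ‖ev G2 z.1 z.2‖ ^ 2 ≤ Cb * ((C1 * (s * E1)) * (C2 * (s * E2))) := by
    have e1 : ∀ z ∈ E, ‖bF G1 G2 z.1 z.2‖ₑ ^ 2 =
        ENNReal.ofReal (‖ev G1 z.1 z.2‖ ^ 2 * ‖ev G2 z.1 z.2‖ ^ 2) := by
      intro z _
      unfold bF
      rw [← ofReal_norm, ← ENNReal.ofReal_pow (norm_nonneg _), norm_mul, RCLike.norm_conj, mul_pow]
    rw [Finset.sum_congr rfl e1, ← ENNReal.ofReal_sum_of_nonneg (fun _ _ => by positivity)] at hb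
    have e2 : ENNReal.ofReal (∑ z ∈ E, ‖ev G1 z.1 z.2‖ ^ 2 * ‖ev G2 z.1 z.2‖ ^ 2) ≤
        ENNReal.ofReal (Cb * ((C1 * (s * E1)) * (C2 * (s * E2)))) := by
      refine hb.trans ?_
      rw [ENNReal.ofReal_mul hCb, ENNReal.ofReal_mul (by positivity)]
      gcongr
    exact (ENNReal.ofReal_le_ofReal_iff (by positivity)).1 e2
  have hcard := card_sq hE hs (fun z hz' => ⟨(hz z hz').1, (hz z hz').2.1⟩)
  have hpt : ∀ z ∈ E, α ^ 4 ≤ 4 * (‖ev G1 z.1 z.2‖ ^ 2 * ‖ev G2 z.1 z.2‖ ^ 2) + 5 * (C1 * C2 * (E1 * E2)) := by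
    intro z hz'
    obtain ⟨hx, ht, ha1, ha2⟩ := hz z hz'
    obtain ⟨p1, q1⟩ := hG1e z.1 z.2 hx ht
    obtain ⟨p2, q2⟩ := hG2e z.1 z.2 hx ht
    have r1 : α ^ 2 ≤ 2 * ‖ev G1 z.1 z.2‖ ^ 2 + C1 * (s⁻¹ ^ 4 * E1) :=
      (pow_le_pow_left₀ hα ha1 2).trans q1
    have r2 : α ^ 2 ≤ 2 * ‖ev G2 z.1 z.2‖ ^ 2 + C2 * (s⁻¹ ^ 4 * E2) :=
      (pow_le_pow_left₀ hα ha2 2).trans q2
    have hsi : s⁻¹ ≤ 1 := inv_le_one_of_one_le₀ hs
    have hsi0 : 0 ≤ s⁻¹ := by positivity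
    have hsi2 : s⁻¹ ^ 4 * s ≤ 1 := by
      have e3 : s⁻¹ ^ 4 * s = s⁻¹ ^ 3 := by field_simp
      rw [e3]; exact pow_le_one₀ hsi0 hsi
    have hsi4 : s⁻¹ ^ 4 ≤ 1 := pow_le_one₀ hsi0 hsi
    set a1 := ‖ev G1 z.1 z.2‖ ^ 2 with ha1d
    set a2 := ‖ev G2 z.1 z.2‖ ^ 2 with ha2d
    have ha10 : 0 ≤ a1 := by positivity
    have ha20 : 0 ≤ a2 := by positivity
    have m1 : 2 * a1 * (C2 * (s⁻¹ ^ 4 * E2)) ≤ 2 * (C1 * C2 * (E1 * E2)) := by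
      calc 2 * a1 * (C2 * (s⁻¹ ^ 4 * E2)) ≤ 2 * (C1 * (s * E1)) * (C2 * (s⁻¹ ^ 4 * E2)) := by gcongr
        _ = 2 * (C1 * C2 * (E1 * E2)) * (s⁻¹ ^ 4 * s) := by ring
        _ ≤ 2 * (C1 * C2 * (E1 * E2)) * 1 := by gcongr
        _ = _ := by ring
    have m2 : 2 * a2 * (C1 * (s⁻¹ ^ 4 * E1)) ≤ 2 * (C1 * C2 * (E1 * E2)) := by
      calc 2 * a2 * (C1 * (s⁻¹ ^ 4 * E1)) ≤ 2 * (C2 * (s * E2)) * (C1 * (s⁻¹ ^ 4 * E1)) := by gcongr
        _ = 2 * (C1 * C2 * (E1 * E2)) * (s⁻¹ ^ 4 * s) := by ring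
        _ ≤ 2 * (C1 * C2 * (E1 * E2)) * 1 := by gcongr
        _ = _ := by ring
    have m3 : (C1 * (s⁻¹ ^ 4 * E1)) * (C2 * (s⁻¹ ^ 4 * E2)) ≤ C1 * C2 * (E1 * E2) := by
      calc (C1 * (s⁻¹ ^ 4 * E1)) * (C2 * (s⁻¹ ^ 4 * E2)) ≤ (C1 * (1 * E1)) * (C2 * (1 * E2)) := by gcongr
        _ = _ := by ring
    calc α ^ 4 = α ^ 2 * α ^ 2 := by ring
      _ ≤ (2 * a1 + C1 * (s⁻¹ ^ 4 * E1)) * (2 * a2 + C2 * (s⁻¹ ^ 4 * E2)) :=
          mul_le_mul r1 r2 (by positivity) (by positivity)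
      _ = 4 * (a1 * a2) + 2 * a1 * (C2 * (s⁻¹ ^ 4 * E2)) + 2 * a2 * (C1 * (s⁻¹ ^ 4 * E1)) +
          (C1 * (s⁻¹ ^ 4 * E1)) * (C2 * (s⁻¹ ^ 4 * E2)) := by ring
      _ ≤ _ := by linarith
  have hsum : α ^ 4 * E.card ≤ ∑ z ∈ E, (4 * (‖ev G1 z.1 z.2‖ ^ 2 * ‖ev G2 z.1 z.2‖ ^ 2) + 5 * (C1 * C2 * (E1 * E2))) := by
    have := Finset.sum_le_sum hpt
    rw [Finset.sum_const, nsmul_eq_mul] at this
    linarith
  refine hsum.trans ?_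
  rw [Finset.sum_add_distrib, ← Finset.mul_sum, Finset.sum_const, nsmul_eq_mul]
  have hEE : 0 ≤ E1 * E2 := by positivity
  calc 4 * ∑ z ∈ E, ‖ev G1 z.1 z.2‖ ^ 2 * ‖ev G2 z.1 z.2‖ ^ 2 + (E.card : ℝ) * (5 * (C1 * C2 * (E1 * E2)))
      ≤ 4 * (Cb * ((C1 * (s * E1)) * (C2 * (s * E2)))) + (100 * s ^ 2) * (5 * (C1 * C2 * (E1 * E2))) := by
        gcongr
    _ = (4 * Cb * C1 * C2 + 500 * C1 * C2) * s ^ 2 * (E1 * E2) := by ring
    _ ≤ (1 + 4 * Cb * C1 * C2 + 500 * C1 * C2) * s ^ 2 * (E1 * E2) := by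
        gcongr
        linarith

/-- **StCount2** of `X/Spec.lean` -/
theorem stCount2 : X.StCount2 := by
  intro B hB ψ₁ ψ₂ hψ₁ hψ₂ δ hδ hsep
  obtain ⟨C, hC, h⟩ := stCount2' B hB ψ₁ ψ₂ hψ₁ hψ₂ δ hδ hsep
  refine ⟨C, hC, ?_⟩
  intro s hs x₀ t₁ Y₁ Y₂ α hY₁ hY₂ hα _ _ h₁ h₂ hh₁ hh₂ hE1 hE2 E hE hz
  have hs0 : 0 < s := by linarith
  refine (h s hs x₀ t₁ α hα.le h₁ h₂ hh₁.1 hh₂.1 E hE hz).trans ?_
  have n1 := En_nonneg' hB hs0 hh₁.1 x₀ t₁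
  have n2 := En_nonneg' hB hs0 hh₂.1 x₀ t₁
  have : 0 ≤ C := by linarith
  gcongr

/-- **StCount** of `X/Spec.lean` -/
theorem stCount : X.StCount := by
  intro B hB ψ₁ ψ₂ hψ₁ hψ₂ δ hδ hsep
  obtain ⟨C, hC, h⟩ := stCount2 B hB ψ₁ ψ₂ hψ₁ hψ₂ δ hδ hsep
  refine ⟨C, hC, ?_⟩
  intro s hs x₀ t₁ Y α hY hα hYα g hg hEn E hE hz
  have := h s hs x₀ t₁ Y Y α hY hY hα hYα hYα g g hg hg hEn hEn E hE hz
  rwa [← sq] at this

end

end Vale.Agent.P076.H40
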