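import Vale.Agent.P076.H40.Smp

/-!
# P076 / X.BIL : the bilinear `L²` bound and its discrete form (helper40)
-/

open MeasureTheory Complex Set Filter Topology FourierTransform
open scoped ENNReal

namespace Vale.Agent.P076.H40

noncomputable section

/-- measurable bounded profile supported in `[-R0, R0]` -/
structure Pf (g : ℝ → ℂ) (R0 : ℝ) : Prop where
  meas : Measurable g
  bdd : ∃ b : ℝ, ∀ ξ, ‖g ξ‖ ≤ b
  supp : ∀ ξ, g ξ ≠ 0 → |ξ| ≤ R0

theorem Pf.of_bdd {g : ℝ → ℂ} {R0 : ℝ} (hm : AEStronglyMeasurable g) {b : ℝ} (hb : ∀ ξ, ‖g ξ‖ ≤ b)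
    (hs : ∀ ξ, g ξ ≠ 0 → |ξ| ≤ R0) : Integrable g ∧ MemLp g 2 := by
  have hb0 : 0 ≤ b := (norm_nonneg _).trans (hb 0)
  have hi : ∀ c : ℝ, Integrable (indicator (Icc (-R0) R0) fun _ : ℝ => c) := by
    intro c
    rw [integrable_indicator_iff measurableSet_Icc]
    exact integrableOn_const (by simp)
  have h1 : Integrable g := by
    refine (hi b).mono' hm (Eventually.of_forall fun ξ => ?_)
    by_cases h : g ξ = 0
    · rw [h, norm_zero]
      exact indicator_nonneg (fun _ _ => hb0) _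
    · rw [indicator_of_mem (show ξ ∈ Icc (-R0) R0 from abs_le.1 (hs ξ h))]
      exact hb ξ
  refine ⟨h1, ?_⟩
  rw [memLp_two_iff_integrable_sq_norm hm]
  refine (hi (b ^ 2)).mono' (hm.norm.pow 2) (Eventually.of_forall fun ξ => ?_)
  rw [Real.norm_of_nonneg (by positivity)]
  by_cases h : g ξ = 0
  · rw [h, norm_zero]
    simpa using indicator_nonneg (fun _ _ => by positivity) _
  · rw [indicator_of_mem (show ξ ∈ Icc (-R0) R0 from abs_le.1 (hs ξ h))]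
    exact pow_le_pow_left₀ (norm_nonneg _) (hb ξ) 2

theorem Pf.int {g : ℝ → ℂ} {R0 : ℝ} (h : Pf g R0) : Integrable g := by
  obtain ⟨b, hb⟩ := h.bdd
  exact (Pf.of_bdd h.meas.aestronglyMeasurable hb h.supp).1

theorem Pf.lp {g : ℝ → ℂ} {R0 : ℝ} (h : Pf g R0) : MemLp g 2 := by
  obtain ⟨b, hb⟩ := h.bdd
  exact (Pf.of_bdd h.meas.aestronglyMeasurable hb h.supp).2

/-- the bilinear product -/
def bF (g1 g2 : ℝ → ℂ) (x t : ℝ) : ℂ := ev g1 x t * (starRingEnd ℂ) (ev g2 x t)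

theorem conj_ev (g : ℝ → ℂ) (x t : ℝ) :
    (starRingEnd ℂ) (ev g x t) = ∫ ξ, (starRingEnd ℂ) (g ξ) * ee (-(x * ξ - t * ξ ^ 2)) := by
  unfold ev
  rw [← integral_conj]
  refine integral_congr_ae (Eventually.of_forall fun ξ => ?_)
  show (starRingEnd ℂ) (g ξ * ee (x * ξ - t * ξ ^ 2)) = _
  rw [map_mul, conj_ee]

theorem bF_eq (g1 g2 : ℝ → ℂ) (x t : ℝ) :
    bF g1 g2 x t = ∫ p : ℝ × ℝ, (g1 p.1 * (starRingEnd ℂ) (g2 p.2)) *
      ee (x * (p.1 - p.2) - t * (p.1 ^ 2 - p.2 ^ 2)) := by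
  unfold bF
  rw [conj_ev]
  unfold ev
  rw [← integral_prod_mul]
  refine integral_congr_ae (Eventually.of_forall fun p => ?_)
  show g1 p.1 * ee (x * p.1 - t * p.1 ^ 2) * ((starRingEnd ℂ) (g2 p.2) * ee (-(x * p.2 - t * p.2 ^ 2))) =
    (g1 p.1 * (starRingEnd ℂ) (g2 p.2)) * ee (x * (p.1 - p.2) - t * (p.1 ^ 2 - p.2 ^ 2))
  have : ee (x * (p.1 - p.2) - t * (p.1 ^ 2 - p.2 ^ 2)) =
      ee (x * p.1 - t * p.1 ^ 2) * ee (-(x * p.2 - t * p.2 ^ 2)) := by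
    rw [← ee_add]; congr 1; ring
  rw [this]; ring

theorem integrable_conj' {g : ℝ → ℂ} (h : Integrable g) :
    Integrable fun x => (starRingEnd ℂ) (g x) := by
  refine (h.norm.mono' ?_ (Eventually.of_forall fun x => by simp))
  exact Complex.continuous_conj.comp_aestronglyMeasurable h.1

theorem bF_swap (g1 g2 : ℝ → ℂ) (h1 : Integrable g1) (h2 : Integrable g2) :
    Integrable (fun p : ℝ × ℝ => g1 p.1 * (starRingEnd ℂ) (g2 p.2)) :=
  h1.mul_prod (integrable_conj' h2)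

theorem continuous_bF {g1 g2 : ℝ → ℂ} (h1 : Integrable g1) (h2 : Integrable g2) :
    Continuous fun p : ℝ × ℝ => bF g1 g2 p.1 p.2 := by
  unfold bF
  exact (continuous_ev h1).mul (Complex.continuous_conj.comp (continuous_ev h2))

theorem iter_rh {K : ℝ → ℝ → ℝ≥0∞} (hK : Measurable fun p : ℝ × ℝ => K p.1 p.2) {C1 C2 : ℝ} (hC1 : 0 ≤ C1) :
    ENNReal.ofReal C1 * ∫⁻ y, rh y * (ENNReal.ofReal C2 * ∫⁻ r, rh r * K y r) =
      ENNReal.ofReal (C1 * C2) * ∫⁻ y, ∫⁻ r, rh y * rh r * K y r := by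
  have e : ∀ y, rh y * (ENNReal.ofReal C2 * ∫⁻ r, rh r * K y r) =
      ENNReal.ofReal C2 * ∫⁻ r, rh y * rh r * K y r := by
    intro y
    have hm : Measurable fun r => rh r * K y r :=
      measurable_rh.mul (hK.comp (measurable_const.prodMk measurable_id))
    rw [mul_left_comm, ← lintegral_const_mul _ hm]
    congr 1
    refine lintegral_congr fun r => ?_
    rw [mul_assoc]
  have hm2 : Measurable fun y => ∫⁻ r, rh y * rh r * K y r :=
    Measurable.lintegral_prod_right' (f := fun p : ℝ × ℝ => rh p.1 * rh p.2 * K p.1 p.2)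
      (((measurable_rh.comp measurable_fst).mul (measurable_rh.comp measurable_snd)).mul hK)
  simp_rw [e]
  rw [lintegral_const_mul _ hm2, ← mul_assoc, ← ENNReal.ofReal_mul hC1]

/-- sampling in both variables -/
theorem samp2 (R0 : ℝ) : ∃ C : ℝ, 0 ≤ C ∧ ∀ g1 g2 : ℝ → ℂ, Pf g1 R0 → Pf g2 R0 → ∀ x t : ℝ,
    ‖bF g1 g2 x t‖ₑ ^ 2 ≤
      ENNReal.ofReal C * ∫⁻ y, ∫⁻ r, rh y * rh r * ‖bF g1 g2 (x - y) (t - r)‖ₑ ^ 2 := by
  obtain ⟨C1, hC1, h1⟩ := samp1 (2 * |R0|)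
  obtain ⟨C2, hC2, h2⟩ := samp1 (2 * R0 ^ 2)
  refine ⟨C1 * C2, by positivity, ?_⟩
  intro g1 g2 hg1 hg2 x t
  have hi := bF_swap g1 g2 hg1.int hg2.int
  have hsupp : ∀ p : ℝ × ℝ, g1 p.1 * (starRingEnd ℂ) (g2 p.2) ≠ 0 → |p.1| ≤ R0 ∧ |p.2| ≤ R0 := by
    intro p hp
    constructor
    · exact hg1.supp _ fun h => hp (by rw [h, zero_mul])
    · exact hg2.supp _ fun h => hp (by rw [h, map_zero, mul_zero])
  -- step in x
  have step1 : ∀ x t : ℝ, ‖bF g1 g2 x t‖ₑ ^ 2 ≤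
      ENNReal.ofReal C1 * ∫⁻ y, rh y * ‖bF g1 g2 (x - y) t‖ₑ ^ 2 := by
    intro x t
    have := h1 (ℝ × ℝ) volume
      (fun p => (g1 p.1 * (starRingEnd ℂ) (g2 p.2)) * ee (-(t * (p.1 ^ 2 - p.2 ^ 2))))
      (fun p => p.1 - p.2) (integrable_mul_ee hi (by fun_prop)) (by fun_prop) ?_ x
    · have e : ∀ z : ℝ, (∫ p : ℝ × ℝ, (g1 p.1 * (starRingEnd ℂ) (g2 p.2)) *
          ee (-(t * (p.1 ^ 2 - p.2 ^ 2))) * ee (z * (p.1 - p.2))) = bF g1 g2 z t := by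
        intro z
        rw [bF_eq]
        refine integral_congr_ae (Eventually.of_forall fun p => ?_)
        show g1 p.1 * (starRingEnd ℂ) (g2 p.2) * ee (-(t * (p.1 ^ 2 - p.2 ^ 2))) * ee (z * (p.1 - p.2)) =
          g1 p.1 * (starRingEnd ℂ) (g2 p.2) * ee (z * (p.1 - p.2) - t * (p.1 ^ 2 - p.2 ^ 2))
        rw [mul_assoc, ← ee_add]
        congr 2; ring
      simp only [e] at this
      exact this
    · intro p hp
      obtain ⟨a, b⟩ := hsupp p fun h => hp (by rw [h, zero_mul])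
      calc |p.1 - p.2| ≤ |p.1| + |p.2| := abs_sub _ _
        _ ≤ R0 + R0 := add_le_add a b
        _ ≤ 2 * |R0| := by linarith [le_abs_self R0]
  have step2 : ∀ x t : ℝ, ‖bF g1 g2 x t‖ₑ ^ 2 ≤
      ENNReal.ofReal C2 * ∫⁻ r, rh r * ‖bF g1 g2 x (t - r)‖ₑ ^ 2 := by
    intro x t
    have := h2 (ℝ × ℝ) volume
      (fun p => (g1 p.1 * (starRingEnd ℂ) (g2 p.2)) * ee (x * (p.1 - p.2)))
      (fun p => -(p.1 ^ 2 - p.2 ^ 2)) (integrable_mul_ee hi (by fun_prop)) (by fun_prop) ?_ t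
    · have e : ∀ z : ℝ, (∫ p : ℝ × ℝ, (g1 p.1 * (starRingEnd ℂ) (g2 p.2)) *
          ee (x * (p.1 - p.2)) * ee (z * -(p.1 ^ 2 - p.2 ^ 2))) = bF g1 g2 x z := by
        intro z
        rw [bF_eq]
        refine integral_congr_ae (Eventually.of_forall fun p => ?_)
        show g1 p.1 * (starRingEnd ℂ) (g2 p.2) * ee (x * (p.1 - p.2)) * ee (z * -(p.1 ^ 2 - p.2 ^ 2)) =
          g1 p.1 * (starRingEnd ℂ) (g2 p.2) * ee (x * (p.1 - p.2) - z * (p.1 ^ 2 - p.2 ^ 2))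
        rw [mul_assoc, ← ee_add]
        congr 2; ring
      simp only [e] at this
      exact this
    · intro p hp
      obtain ⟨a, b⟩ := hsupp p fun h => hp (by rw [h, zero_mul])
      rw [abs_neg]
      have a2 : p.1 ^ 2 ≤ R0 ^ 2 := sq_le_sq' (by linarith [(abs_le.1 a).1]) (abs_le.1 a).2
      have b2 : p.2 ^ 2 ≤ R0 ^ 2 := sq_le_sq' (by linarith [(abs_le.1 b).1]) (abs_le.1 b).2
      rw [abs_le]
      constructor <;> nlinarith [sq_nonneg p.1, sq_nonneg p.2]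
  have hmeas : Measurable fun p : ℝ × ℝ => ‖bF g1 g2 (x - p.1) (t - p.2)‖ₑ ^ 2 := by
    have := (continuous_bF hg1.int hg2.int).comp
      (show Continuous fun p : ℝ × ℝ => (x - p.1, t - p.2) by fun_prop)
    exact (this.measurable.enorm).pow_const 2
  calc ‖bF g1 g2 x t‖ₑ ^ 2 ≤ ENNReal.ofReal C1 * ∫⁻ y, rh y * ‖bF g1 g2 (x - y) t‖ₑ ^ 2 := step1 x t
    _ ≤ ENNReal.ofReal C1 * ∫⁻ y, rh y *
          (ENNReal.ofReal C2 * ∫⁻ r, rh r * ‖bF g1 g2 (x - y) (t - r)‖ₑ ^ 2) := by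
        gcongr with y
        exact step2 _ _
    _ = _ := iter_rh (K := fun y r => ‖bF g1 g2 (x - y) (t - r)‖ₑ ^ 2) hmeas hC1

end

end Vale.Agent.P076.H40
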