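import Vale.Agent.P076.H40.Bil2

/-!
# P076 / X.BIL : the bilinear `L²` bound (helper40)
-/

open MeasureTheory Complex Set Filter Topology FourierTransform
open scoped ENNReal

namespace Vale.Agent.P076.H40

noncomputable section

/-- `∫⁻ f(c t) dt = |c|⁻¹ ∫⁻ f` -/
theorem lintegral_scale {f : ℝ → ℝ≥0∞} (hf : Measurable f) {c : ℝ} (hc : c ≠ 0) :
    ∫⁻ t, f (c * t) = ENNReal.ofReal |c⁻¹| * ∫⁻ u, f u := by
  have h := lintegral_map (μ := (volume : Measure ℝ)) hf (measurable_const_mul c)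
  rw [← h, Real.map_volume_mul_left hc, lintegral_smul_measure, smul_eq_mul]

/-- shifted product -/
def Hs (g1 g2 : ℝ → ℂ) (a ξ : ℝ) : ℂ := g1 (ξ + a) * (starRingEnd ℂ) (g2 ξ)

/-- its oscillatory integral -/
def Ss (g1 g2 : ℝ → ℂ) (a t : ℝ) : ℂ := ∫ ξ, Hs g1 g2 a ξ * ee (-(2 * a * t) * ξ)

variable {g1 g2 : ℝ → ℂ} {R0 : ℝ}

theorem measurable_Hs (h1 : Pf g1 R0) (h2 : Pf g2 R0) : Measurable fun p : ℝ × ℝ => Hs g1 g2 p.1 p.2 := by
  unfold Hs
  exact (h1.meas.comp (measurable_snd.add measurable_fst)).mul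
    (Complex.continuous_conj.measurable.comp (h2.meas.comp measurable_snd))

theorem Hs_bdd (h1 : Pf g1 R0) (h2 : Pf g2 R0) : ∃ b : ℝ, 0 ≤ b ∧ ∀ a ξ, ‖Hs g1 g2 a ξ‖ ≤ b := by
  obtain ⟨b1, hb1⟩ := h1.bdd
  obtain ⟨b2, hb2⟩ := h2.bdd
  have h10 : 0 ≤ b1 := (norm_nonneg _).trans (hb1 0)
  have h20 : 0 ≤ b2 := (norm_nonneg _).trans (hb2 0)
  refine ⟨b1 * b2, by positivity, fun a ξ => ?_⟩
  unfold Hs
  rw [norm_mul, RCLike.norm_conj]
  exact mul_le_mul (hb1 _) (hb2 _) (norm_nonneg _) h10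

theorem Hs_supp (h1 : Pf g1 R0) (h2 : Pf g2 R0) {a ξ : ℝ} (h : Hs g1 g2 a ξ ≠ 0) :
    |ξ| ≤ R0 ∧ |a| ≤ 2 * R0 := by
  unfold Hs at h
  have e1 : g1 (ξ + a) ≠ 0 := fun h0 => h (by rw [h0, zero_mul])
  have e2 : g2 ξ ≠ 0 := fun h0 => h (by rw [h0, map_zero, mul_zero])
  have f1 := h1.supp _ e1
  have f2 := h2.supp _ e2
  refine ⟨f2, ?_⟩
  calc |a| = |(ξ + a) - ξ| := by congr 1; ring
    _ ≤ |ξ + a| + |ξ| := abs_sub _ _
    _ ≤ 2 * R0 := by linarith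

theorem measurable_Ss (h1 : Pf g1 R0) (h2 : Pf g2 R0) : Measurable fun p : ℝ × ℝ => Ss g1 g2 p.1 p.2 := by
  unfold Ss
  have hm : Measurable fun q : (ℝ × ℝ) × ℝ => Hs g1 g2 q.1.1 q.2 * ee (-(2 * q.1.1 * q.1.2) * q.2) :=
    ((measurable_Hs h1 h2).comp ((measurable_fst.comp measurable_fst).prodMk measurable_snd)).mul
      (by fun_prop)
  exact (hm.stronglyMeasurable.integral_prod_right').measurable

theorem Hs_int (h1 : Pf g1 R0) (h2 : Pf g2 R0) (a : ℝ) :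
    Integrable (Hs g1 g2 a) ∧ MemLp (Hs g1 g2 a) 2 := by
  obtain ⟨b, _, hb⟩ := Hs_bdd h1 h2
  exact Pf.of_bdd (((measurable_Hs h1 h2).comp (measurable_const.prodMk measurable_id)).aestronglyMeasurable)
    (hb a) fun ξ hξ => (Hs_supp h1 h2 hξ).1

theorem Ss_int (h1 : Pf g1 R0) (h2 : Pf g2 R0) (t : ℝ) :
    Integrable (fun a => ee (-(t * a ^ 2)) * Ss g1 g2 a t) ∧
      MemLp (fun a => ee (-(t * a ^ 2)) * Ss g1 g2 a t) 2 := by
  obtain ⟨b, hb0, hb⟩ := Hs_bdd h1 h2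
  have hm : Measurable fun a => ee (-(t * a ^ 2)) * Ss g1 g2 a t :=
    (by fun_prop : Measurable fun a : ℝ => ee (-(t * a ^ 2))).mul
      ((measurable_Ss h1 h2).comp (measurable_id.prodMk measurable_const))
  refine Pf.of_bdd (R0 := 2 * R0) (b := ∫ ξ, indicator (Icc (-R0) R0) (fun _ : ℝ => b) ξ)
    hm.aestronglyMeasurable (fun a => ?_) (fun a ha => ?_)
  · rw [norm_mul, norm_ee, one_mul]
    unfold Ss
    refine norm_integral_le_of_norm_le ?_ (Eventually.of_forall fun ξ => ?_)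
    · rw [integrable_indicator_iff measurableSet_Icc]
      exact integrableOn_const (by simp)
    · rw [norm_mul, norm_ee, mul_one]
      by_cases h : Hs g1 g2 a ξ = 0
      · rw [h, norm_zero]
        exact indicator_nonneg (fun _ _ => hb0) _
      · rw [indicator_of_mem (show ξ ∈ Icc (-R0) R0 from abs_le.1 (Hs_supp h1 h2 h).1)]
        exact hb a ξ
  · by_contra hcon
    refine ha ?_
    have : ∀ ξ, Hs g1 g2 a ξ = 0 := by
      intro ξ
      by_contra h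
      exact hcon (Hs_supp h1 h2 h).2
    unfold Ss
    simp [this]

/-- the product as a Fourier integral in `x` -/
theorem bF_four (h1 : Pf g1 R0) (h2 : Pf g2 R0) (x t : ℝ) :
    bF g1 g2 x t = ∫ a, (ee (-(t * a ^ 2)) * Ss g1 g2 a t) * ee (x * a) := by
  have hi : Integrable (Function.uncurry fun ξ a : ℝ => Hs g1 g2 a ξ * (ee (-(t * a ^ 2)) *
      (ee (-(2 * a * t) * ξ) * ee (x * a)))) (volume.prod volume) := by
    obtain ⟨b, hb0, hb⟩ := Hs_bdd h1 h2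
    have hI : ∀ (R c : ℝ), Integrable (indicator (Icc (-R) R) fun _ : ℝ => c) := by
      intro R c
      rw [integrable_indicator_iff measurableSet_Icc]
      exact integrableOn_const (by simp)
    refine ((hI R0 b).mul_prod (hI (2 * R0) 1)).mono' ?_ (Eventually.of_forall fun p => ?_)
    · refine Measurable.aestronglyMeasurable ?_
      exact ((measurable_Hs h1 h2).comp (measurable_snd.prodMk measurable_fst)).mul (by fun_prop)
    · simp only [Function.uncurry, norm_mul, norm_ee, mul_one]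
      by_cases h : Hs g1 g2 p.2 p.1 = 0
      · rw [h, norm_zero]
        exact mul_nonneg (indicator_nonneg (fun _ _ => hb0) _) (indicator_nonneg (fun _ _ => zero_le_one) _)
      · rw [indicator_of_mem (show p.1 ∈ Icc (-R0) R0 from abs_le.1 (Hs_supp h1 h2 h).1),
          indicator_of_mem (show p.2 ∈ Icc (-(2 * R0)) (2 * R0) from abs_le.1 (Hs_supp h1 h2 h).2), mul_one]
        exact hb _ _
  have e1 : bF g1 g2 x t = ∫ ξ, ∫ a, Hs g1 g2 a ξ * (ee (-(t * a ^ 2)) *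
      (ee (-(2 * a * t) * ξ) * ee (x * a))) := by
    unfold bF
    rw [conj_ev]
    rw [mul_comm]
    rw [← integral_mul_const]
    refine integral_congr_ae (Eventually.of_forall fun ξ => ?_)
    show (starRingEnd ℂ) (g2 ξ) * ee (-(x * ξ - t * ξ ^ 2)) * ev g1 x t = _
    unfold ev
    rw [← integral_const_mul, ← integral_add_left_eq_self (fun η => (starRingEnd ℂ) (g2 ξ) *
      ee (-(x * ξ - t * ξ ^ 2)) * (g1 η * ee (x * η - t * η ^ 2))) ξ]
    refine integral_congr_ae (Eventually.of_forall fun a => ?_)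
    show (starRingEnd ℂ) (g2 ξ) * ee (-(x * ξ - t * ξ ^ 2)) * (g1 (ξ + a) * ee (x * (ξ + a) - t * (ξ + a) ^ 2)) =
      Hs g1 g2 a ξ * (ee (-(t * a ^ 2)) * (ee (-(2 * a * t) * ξ) * ee (x * a)))
    unfold Hs
    have : ee (-(x * ξ - t * ξ ^ 2)) * ee (x * (ξ + a) - t * (ξ + a) ^ 2) =
        ee (-(t * a ^ 2)) * (ee (-(2 * a * t) * ξ) * ee (x * a)) := by
      rw [← ee_add, ← ee_add, ← ee_add]; congr 1; ring
    rw [← this]; ring
  rw [e1, integral_integral_swap hi]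
  refine integral_congr_ae (Eventually.of_forall fun a => ?_)
  show ∫ ξ, Hs g1 g2 a ξ * (ee (-(t * a ^ 2)) * (ee (-(2 * a * t) * ξ) * ee (x * a))) =
    ee (-(t * a ^ 2)) * Ss g1 g2 a t * ee (x * a)
  have e2 : ∀ ξ, Hs g1 g2 a ξ * (ee (-(t * a ^ 2)) * (ee (-(2 * a * t) * ξ) * ee (x * a))) =
      (ee (-(t * a ^ 2)) * ee (x * a)) * (Hs g1 g2 a ξ * ee (-(2 * a * t) * ξ)) := by
    intro ξ; ring
  simp_rw [e2]
  rw [integral_const_mul]
  unfold Ss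
  ring

/-- Plancherel with `ee` -/
theorem planch_ee (g : ℝ → ℂ) (h1 : Integrable g) (h2 : MemLp g 2) :
    ∫⁻ x, ‖∫ ξ, g ξ * ee (x * ξ)‖ₑ ^ 2 = ∫⁻ ξ, ‖g ξ‖ₑ ^ 2 := by
  have h := Vale.Agent.P122.FI.planch g h1 h2
  rw [← h]
  refine lintegral_congr fun x => ?_
  congr 2
  refine integral_congr_ae (Eventually.of_forall fun ξ => ?_)
  show g ξ * ee (x * ξ) = g ξ * cexp (2 * Real.pi * I * ((inner ℝ x ξ : ℝ) : ℂ))
  unfold ee
  simp [mul_comm]

/-- **bilinear `L²` bound** -/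
theorem bil_L2 (h1 : Pf g1 R0) (h2 : Pf g2 R0) {δ : ℝ} (hδ : 0 < δ)
    (hsep : ∀ ξ η, g1 ξ ≠ 0 → g2 η ≠ 0 → δ ≤ |ξ - η|) :
    ∫⁻ t, ∫⁻ x, ‖bF g1 g2 x t‖ₑ ^ 2 ≤
      ENNReal.ofReal (1 / (2 * δ)) * ((∫⁻ ξ, ‖g1 ξ‖ₑ ^ 2) * ∫⁻ ξ, ‖g2 ξ‖ₑ ^ 2) := by
  have e1 : ∀ t, ∫⁻ x, ‖bF g1 g2 x t‖ₑ ^ 2 = ∫⁻ a, ‖Ss g1 g2 a t‖ₑ ^ 2 := by
    intro t
    have hs := Ss_int h1 h2 t
    have hp := planch_ee _ hs.1 hs.2
    simp only [← bF_four h1 h2, enorm_mul, enorm_ee, one_mul] at hp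
    exact hp
  have hmS : Measurable fun p : ℝ × ℝ => ‖Ss g1 g2 p.1 p.2‖ₑ ^ 2 := (measurable_Ss h1 h2).enorm.pow_const 2
  simp_rw [e1]
  have hmS' : AEMeasurable (Function.uncurry fun t a : ℝ => ‖Ss g1 g2 a t‖ₑ ^ 2) (volume.prod volume) :=
    (hmS.comp measurable_swap).aemeasurable
  rw [lintegral_lintegral_swap hmS']
  have e2 : ∀ a, ∫⁻ t, ‖Ss g1 g2 a t‖ₑ ^ 2 ≤
      ENNReal.ofReal (1 / (2 * δ)) * ∫⁻ ξ, ‖g1 (ξ + a)‖ₑ ^ 2 * ‖g2 ξ‖ₑ ^ 2 := by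
    intro a
    by_cases ha : |a| < δ
    · have h0 : ∀ ξ, Hs g1 g2 a ξ = 0 := by
        intro ξ
        by_contra h
        unfold Hs at h
        have e1 : g1 (ξ + a) ≠ 0 := fun h0 => h (by rw [h0, zero_mul])
        have e2 : g2 ξ ≠ 0 := fun h0 => h (by rw [h0, map_zero, mul_zero])
        have := hsep _ _ e1 e2
        rw [add_sub_cancel_left] at this
        linarith
      have : ∀ t, Ss g1 g2 a t = 0 := by intro t; unfold Ss; simp [h0]
      simp [this]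
    · push Not at ha
      have ha0 : a ≠ 0 := by
        intro h; rw [h, abs_zero] at ha; linarith
      have hsc := lintegral_scale (f := fun u => ‖∫ ξ, Hs g1 g2 a ξ * ee (u * ξ)‖ₑ ^ 2) ?_ (c := -(2 * a))
        (by simpa using ha0)
      · have e3 : ∀ t, ‖Ss g1 g2 a t‖ₑ ^ 2 = ‖∫ ξ, Hs g1 g2 a ξ * ee (-(2 * a) * t * ξ)‖ₑ ^ 2 := by
          intro t; unfold Ss
          have : ∀ ξ, -(2 * a * t) * ξ = -(2 * a) * t * ξ := by intro ξ; ring
          simp_rw [this]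
        simp_rw [e3]
        rw [hsc]
        have hp := planch_ee _ (Hs_int h1 h2 a).1 (Hs_int h1 h2 a).2
        rw [hp]
        have e4 : ∀ ξ, ‖Hs g1 g2 a ξ‖ₑ ^ 2 = ‖g1 (ξ + a)‖ₑ ^ 2 * ‖g2 ξ‖ₑ ^ 2 := by
          intro ξ
          unfold Hs
          rw [enorm_mul, mul_pow]
          congr 2
          rw [← ofReal_norm, RCLike.norm_conj, ofReal_norm]
        simp_rw [e4]
        gcongr
        rw [abs_inv, abs_neg, abs_mul, abs_two, one_div]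
        exact inv_anti₀ (by positivity) (by linarith)
      · have hm : Measurable fun q : ℝ × ℝ => Hs g1 g2 a q.2 * ee (q.1 * q.2) :=
          ((measurable_Hs h1 h2).comp (measurable_const.prodMk measurable_snd)).mul (by fun_prop)
        exact ((hm.stronglyMeasurable.integral_prod_right').measurable).enorm.pow_const 2
  refine (lintegral_mono e2).trans ?_
  have hmg : Measurable fun p : ℝ × ℝ => ‖g1 (p.2 + p.1)‖ₑ ^ 2 * ‖g2 p.2‖ₑ ^ 2 :=
    ((h1.meas.comp (measurable_snd.add measurable_fst)).enorm.pow_const 2).mul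
      ((h2.meas.comp measurable_snd).enorm.pow_const 2)
  rw [lintegral_const_mul _ (Measurable.lintegral_prod_right' hmg)]
  gcongr
  have hmg' : AEMeasurable (Function.uncurry fun a ξ : ℝ => ‖g1 (ξ + a)‖ₑ ^ 2 * ‖g2 ξ‖ₑ ^ 2)
      (volume.prod volume) := hmg.aemeasurable
  rw [lintegral_lintegral_swap hmg']
  have e5 : ∀ ξ, ∫⁻ a, ‖g1 (ξ + a)‖ₑ ^ 2 * ‖g2 ξ‖ₑ ^ 2 = (∫⁻ a, ‖g1 a‖ₑ ^ 2) * ‖g2 ξ‖ₑ ^ 2 := by
    intro ξ
    have hmm : Measurable fun a : ℝ => ‖g1 (ξ + a)‖ₑ ^ 2 :=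
      (h1.meas.comp (measurable_const_add ξ)).enorm.pow_const 2
    rw [lintegral_mul_const _ hmm]
    congr 1
    exact lintegral_add_left_eq_self (fun a => ‖g1 a‖ₑ ^ 2) ξ
  simp_rw [e5]
  rw [lintegral_const_mul _ (h2.meas.enorm.pow_const 2)]

end

end Vale.Agent.P076.H40
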