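import Vale.Agent.P076.H40.Bil3

/-!
# P076 / X.BIL : the discrete bilinear bound (helper40)
-/

open MeasureTheory Complex Set Filter Topology FourierTransform
open scoped ENNReal

namespace Vale.Agent.P076.H40

noncomputable section

/-- `∑ 1/(1+m²)` -/
def Sr : ℝ := ∑' m : ℤ, 1 / (1 + (m : ℝ) ^ 2)

theorem Sr_nonneg : 0 ≤ Sr := tsum_nonneg fun m => by positivity

theorem sum_rho_le (A : Finset ℤ) (c : ℤ) : ∑ a ∈ A, 1 / (1 + ((a - c : ℤ) : ℝ) ^ 2) ≤ Sr := by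
  have h : ∑ a ∈ A, 1 / (1 + ((a - c : ℤ) : ℝ) ^ 2) =
      ∑ m ∈ A.image (fun a => a - c), 1 / (1 + (m : ℝ) ^ 2) := by
    rw [Finset.sum_image]
    intro a _ b _ h
    simpa using h
  rw [h]
  exact summable_rho.sum_le_tsum _ fun m _ => by positivity

/-- unit separated points in the plane -/
def Sep (E : Finset (ℝ × ℝ)) : Prop :=
  ∀ z ∈ E, ∀ z' ∈ E, z ≠ z' → 1 ≤ |z.1 - z'.1| ∨ 1 ≤ |z.2 - z'.2|

theorem abs_sub_lt_one_of_floor {x y : ℝ} (h : ⌊x⌋ = ⌊y⌋) : |x - y| < 1 := by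
  have h1 := Int.floor_le x
  have h2 := Int.lt_floor_add_one x
  have h3 := Int.floor_le y
  have h4 := Int.lt_floor_add_one y
  rw [h] at h1 h2
  rw [abs_lt]
  constructor <;> linarith

theorem Sep.inj {E : Finset (ℝ × ℝ)} (h : Sep E) :
    Set.InjOn (fun z : ℝ × ℝ => ((⌊z.1⌋ : ℤ), (⌊z.2⌋ : ℤ))) E := by
  intro z hz z' hz' he
  by_contra hne
  simp only [Prod.mk.injEq] at he
  rcases h z hz z' hz' hne with h1 | h1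
  · linarith [abs_sub_lt_one_of_floor he.1]
  · linarith [abs_sub_lt_one_of_floor he.2]

theorem sum_rh_le {E : Finset (ℝ × ℝ)} (h : Sep E) (u v : ℝ) :
    ∑ z ∈ E, rh (z.1 - u) * rh (z.2 - v) ≤ ENNReal.ofReal (81 * Sr ^ 2) := by
  have h1 : ∀ z ∈ E, rh (z.1 - u) * rh (z.2 - v) ≤
      ENNReal.ofReal (81 * ((1 / (1 + ((⌊z.1⌋ - ⌊u⌋ : ℤ) : ℝ) ^ 2)) * (1 / (1 + ((⌊z.2⌋ - ⌊v⌋ : ℤ) : ℝ) ^ 2)))) := by
    intro z _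
    unfold rh
    rw [← ENNReal.ofReal_mul (by positivity)]
    refine ENNReal.ofReal_le_ofReal ?_
    calc _ ≤ (9 * (1 / (1 + ((⌊z.1⌋ - ⌊u⌋ : ℤ) : ℝ) ^ 2))) * (9 * (1 / (1 + ((⌊z.2⌋ - ⌊v⌋ : ℤ) : ℝ) ^ 2))) :=
          mul_le_mul (rho_floor _ _) (rho_floor _ _) (by positivity) (by positivity)
      _ = _ := by ring
  refine (Finset.sum_le_sum h1).trans ?_
  rw [← ENNReal.ofReal_sum_of_nonneg (fun z _ => by positivity)]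
  refine ENNReal.ofReal_le_ofReal ?_
  rw [← Finset.mul_sum]
  refine mul_le_mul_of_nonneg_left ?_ (by norm_num)
  have h2 : ∑ z ∈ E, (1 / (1 + ((⌊z.1⌋ - ⌊u⌋ : ℤ) : ℝ) ^ 2)) * (1 / (1 + ((⌊z.2⌋ - ⌊v⌋ : ℤ) : ℝ) ^ 2)) =
      ∑ p ∈ E.image (fun z : ℝ × ℝ => ((⌊z.1⌋ : ℤ), (⌊z.2⌋ : ℤ))),
        (1 / (1 + ((p.1 - ⌊u⌋ : ℤ) : ℝ) ^ 2)) * (1 / (1 + ((p.2 - ⌊v⌋ : ℤ) : ℝ) ^ 2)) := by
    rw [Finset.sum_image (fun z hz z' hz' he => h.inj hz hz' he)]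
  rw [h2]
  set I := E.image (fun z : ℝ × ℝ => ((⌊z.1⌋ : ℤ), (⌊z.2⌋ : ℤ))) with hI
  calc ∑ p ∈ I, (1 / (1 + ((p.1 - ⌊u⌋ : ℤ) : ℝ) ^ 2)) * (1 / (1 + ((p.2 - ⌊v⌋ : ℤ) : ℝ) ^ 2))
      ≤ ∑ p ∈ (I.image Prod.fst) ×ˢ (I.image Prod.snd),
          (1 / (1 + ((p.1 - ⌊u⌋ : ℤ) : ℝ) ^ 2)) * (1 / (1 + ((p.2 - ⌊v⌋ : ℤ) : ℝ) ^ 2)) := by
        refine Finset.sum_le_sum_of_subset_of_nonneg ?_ (fun p _ _ => by positivity)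
        intro p hp
        rw [Finset.mem_product]
        exact ⟨Finset.mem_image_of_mem _ hp, Finset.mem_image_of_mem _ hp⟩
    _ = (∑ a ∈ I.image Prod.fst, 1 / (1 + ((a - ⌊u⌋ : ℤ) : ℝ) ^ 2)) *
          ∑ b ∈ I.image Prod.snd, 1 / (1 + ((b - ⌊v⌋ : ℤ) : ℝ) ^ 2) := by
        rw [Finset.sum_mul_sum, Finset.sum_product]
    _ ≤ Sr * Sr := mul_le_mul (sum_rho_le _ _) (sum_rho_le _ _)
          (Finset.sum_nonneg fun _ _ => by positivity) Sr_nonneg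
    _ = Sr ^ 2 := by ring

theorem sum_int {E : Finset (ℝ × ℝ)} (hE : Sep E) {Φ : ℝ → ℝ → ℝ≥0∞}
    (hΦ : Measurable fun p : ℝ × ℝ => Φ p.1 p.2) :
    ∑ z ∈ E, ∫⁻ u, ∫⁻ v, rh (z.1 - u) * rh (z.2 - v) * Φ u v ≤
      ENNReal.ofReal (81 * Sr ^ 2) * ∫⁻ v, ∫⁻ u, Φ u v := by
  have hm : ∀ z : ℝ × ℝ, Measurable fun p : ℝ × ℝ => rh (z.1 - p.1) * rh (z.2 - p.2) * Φ p.1 p.2 := by
    intro z
    exact ((measurable_rh.comp (measurable_const.sub measurable_fst)).mul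
      (measurable_rh.comp (measurable_const.sub measurable_snd))).mul hΦ
  have hm1 : ∀ z : ℝ × ℝ, Measurable fun u => ∫⁻ v, rh (z.1 - u) * rh (z.2 - v) * Φ u v :=
    fun z => Measurable.lintegral_prod_right' (hm z)
  have hm2 : ∀ (u : ℝ) (z : ℝ × ℝ), Measurable fun v => rh (z.1 - u) * rh (z.2 - v) * Φ u v :=
    fun u z => (measurable_const.mul (measurable_rh.comp (measurable_id.const_sub z.2))).mul
      (hΦ.comp measurable_prodMk_left)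
  have hm3 : ∀ v : ℝ, Measurable fun u => Φ u v := fun v => hΦ.comp measurable_prodMk_right
  have hm4 : Measurable fun v => ∫⁻ u, Φ u v := Measurable.lintegral_prod_left' hΦ
  have hm5 : AEMeasurable (Function.uncurry fun u v : ℝ => ENNReal.ofReal (81 * Sr ^ 2) * Φ u v)
      (volume.prod volume) := (measurable_const.mul hΦ).aemeasurable
  have a1 : ∑ z ∈ E, ∫⁻ u, ∫⁻ v, rh (z.1 - u) * rh (z.2 - v) * Φ u v =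
      ∫⁻ u, ∑ z ∈ E, ∫⁻ v, rh (z.1 - u) * rh (z.2 - v) * Φ u v := by
    rw [lintegral_finsetSum _ fun z _ => hm1 z]
  have a2 : ∀ u, ∑ z ∈ E, ∫⁻ v, rh (z.1 - u) * rh (z.2 - v) * Φ u v ≤
      ∫⁻ v, ENNReal.ofReal (81 * Sr ^ 2) * Φ u v := by
    intro u
    rw [← lintegral_finsetSum _ fun z _ => hm2 u z]
    refine lintegral_mono fun v => ?_
    rw [← Finset.sum_mul]
    exact mul_le_mul_left (sum_rh_le hE u v) _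
  have a3 : ∫⁻ u, ∫⁻ v, ENNReal.ofReal (81 * Sr ^ 2) * Φ u v =
      ∫⁻ v, ∫⁻ u, ENNReal.ofReal (81 * Sr ^ 2) * Φ u v := lintegral_lintegral_swap hm5
  have a4 : ∀ v, ∫⁻ u, ENNReal.ofReal (81 * Sr ^ 2) * Φ u v = ENNReal.ofReal (81 * Sr ^ 2) * ∫⁻ u, Φ u v := by
    intro v
    rw [lintegral_const_mul _ (hm3 v)]
  have a5 : ∫⁻ v, ENNReal.ofReal (81 * Sr ^ 2) * ∫⁻ u, Φ u v =
      ENNReal.ofReal (81 * Sr ^ 2) * ∫⁻ v, ∫⁻ u, Φ u v := by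
    rw [lintegral_const_mul _ hm4]
  rw [a1]
  refine (lintegral_mono a2).trans (le_of_eq ?_)
  rw [a3, ← a5]
  exact lintegral_congr a4

theorem shift_int {Φ : ℝ → ℝ → ℝ≥0∞} (z : ℝ × ℝ) :
    ∫⁻ y, ∫⁻ r, rh y * rh r * Φ (z.1 - y) (z.2 - r) = ∫⁻ u, ∫⁻ v, rh (z.1 - u) * rh (z.2 - v) * Φ u v := by
  rw [← lintegral_sub_left_eq_self (fun u => ∫⁻ v, rh (z.1 - u) * rh (z.2 - v) * Φ u v) z.1]
  refine lintegral_congr fun y => ?_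
  rw [← lintegral_sub_left_eq_self (fun v => rh (z.1 - (z.1 - y)) * rh (z.2 - v) * Φ (z.1 - y) v) z.2]
  refine lintegral_congr fun r => ?_
  rw [sub_sub_cancel, sub_sub_cancel]

/-- **discrete bilinear bound** -/
theorem bil_disc (R0 δ : ℝ) (hδ : 0 < δ) : ∃ C : ℝ, 0 ≤ C ∧ ∀ g1 g2 : ℝ → ℂ, Pf g1 R0 → Pf g2 R0 →
    (∀ ξ η, g1 ξ ≠ 0 → g2 η ≠ 0 → δ ≤ |ξ - η|) → ∀ E : Finset (ℝ × ℝ), Sep E →
    ∑ z ∈ E, ‖bF g1 g2 z.1 z.2‖ₑ ^ 2 ≤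
      ENNReal.ofReal C * ((∫⁻ ξ, ‖g1 ξ‖ₑ ^ 2) * ∫⁻ ξ, ‖g2 ξ‖ₑ ^ 2) := by
  obtain ⟨C, hC, h⟩ := samp2 R0
  have hS := Sr_nonneg
  refine ⟨C * (81 * Sr ^ 2) * (1 / (2 * δ)), by positivity, ?_⟩
  intro g1 g2 h1 h2 hsep E hE
  have hmF : Measurable fun p : ℝ × ℝ => ‖bF g1 g2 p.1 p.2‖ₑ ^ 2 :=
    ((continuous_bF h1.int h2.int).measurable.enorm).pow_const 2
  have s1 : ∑ z ∈ E, ‖bF g1 g2 z.1 z.2‖ₑ ^ 2 ≤
      ENNReal.ofReal C * ∑ z ∈ E, ∫⁻ u, ∫⁻ v, rh (z.1 - u) * rh (z.2 - v) * ‖bF g1 g2 u v‖ₑ ^ 2 := by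
    rw [Finset.mul_sum]
    refine Finset.sum_le_sum fun z _ => ?_
    refine (h g1 g2 h1 h2 z.1 z.2).trans (le_of_eq ?_)
    rw [shift_int (Φ := fun u v => ‖bF g1 g2 u v‖ₑ ^ 2) z]
  have s2 := sum_int hE (Φ := fun u v => ‖bF g1 g2 u v‖ₑ ^ 2) hmF
  have s3 := bil_L2 h1 h2 hδ hsep
  refine s1.trans ?_
  calc ENNReal.ofReal C * ∑ z ∈ E, ∫⁻ u, ∫⁻ v, rh (z.1 - u) * rh (z.2 - v) * ‖bF g1 g2 u v‖ₑ ^ 2
      ≤ ENNReal.ofReal C * (ENNReal.ofReal (81 * Sr ^ 2) * (ENNReal.ofReal (1 / (2 * δ)) *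
          ((∫⁻ ξ, ‖g1 ξ‖ₑ ^ 2) * ∫⁻ ξ, ‖g2 ξ‖ₑ ^ 2))) := by
        gcongr
        exact s2.trans (mul_le_mul_right s3 _)
    _ = _ := by
        rw [ENNReal.ofReal_mul (p := C * (81 * Sr ^ 2)) (by positivity), ENNReal.ofReal_mul hC]
        ring

end

end Vale.Agent.P076.H40
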