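import Mathlib.Analysis.Calculus.ContDiff.Basic
import Mathlib.MeasureTheory.Integral.IntegralEqImproper
import Mathlib.Analysis.SpecialFunctions.Complex.Analytic
import Mathlib.Analysis.SpecialFunctions.Exp
import Mathlib.Analysis.Calculus.Deriv.Support
import Mathlib.Analysis.SpecialFunctions.ExpDeriv

/-!
# P076 / P0.NSP : one-dimensional non-stationary phase (helper40)

`nsp`: for `a` smooth with compact support, every `N` and every `M`, there is `C` with
`|∫ a(r) e^{2πi(β r - τ r²)} dr| ≤ C / m^N` whenever `|β - 2τ r| ≥ m` on the support of `a`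
and `|τ| ≤ M m`.
-/

open MeasureTheory Complex Set Filter Topology
open scoped ContDiff

namespace Vale.Agent.P076.H40

noncomputable section

/-- the phase `e^{2πi(β r - τ r²)}` -/
def eph (β τ r : ℝ) : ℂ := cexp (2 * Real.pi * I * ((β * r - τ * r ^ 2 : ℝ) : ℂ))

theorem norm_eph (β τ r : ℝ) : ‖eph β τ r‖ = 1 := by
  unfold eph
  have : (2 * Real.pi * I * ((β * r - τ * r ^ 2 : ℝ) : ℂ)) =
      ((2 * Real.pi * (β * r - τ * r ^ 2) : ℝ) : ℂ) * I := by
    push_cast; ring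
  rw [this, Complex.norm_exp_ofReal_mul_I]

theorem hasDerivAt_eph (β τ r : ℝ) :
    HasDerivAt (eph β τ) ((2 * Real.pi * I * ((β - 2 * τ * r : ℝ) : ℂ)) * eph β τ r) r := by
  unfold eph
  have h1 : HasDerivAt (fun r : ℝ => β * r - τ * r ^ 2) (β - 2 * τ * r) r := by
    have h0 := ((hasDerivAt_id' r).const_mul β).fun_sub ((hasDerivAt_pow 2 r).const_mul τ)
    refine h0.congr_deriv ?_
    push_cast; ring
  have h2 := (h1.ofReal_comp.const_mul (2 * Real.pi * I)).cexp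
  convert h2 using 1
  ring

theorem continuous_eph (β τ : ℝ) : Continuous (eph β τ) := by
  unfold eph; fun_prop

/-- weighted oscillatory integral -/
def J (a : ℝ → ℂ) (k : ℕ) (β τ : ℝ) : ℂ :=
  ∫ r, a r * ((((β - 2 * τ * r) ^ k)⁻¹ : ℝ) : ℂ) * eph β τ r

/-- the amplitude of `J` has derivative as expected -/
theorem hasDerivAt_amp {a : ℝ → ℂ} (ha : ContDiff ℝ ∞ a) (k : ℕ) {β τ m : ℝ} (hm : 0 < m)
    (h : ∀ r ∈ tsupport a, m ≤ |β - 2 * τ * r|) (r : ℝ) :
    HasDerivAt (fun r => a r * ((((β - 2 * τ * r) ^ (k + 1))⁻¹ : ℝ) : ℂ))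
      (deriv a r * ((((β - 2 * τ * r) ^ (k + 1))⁻¹ : ℝ) : ℂ) +
        ((2 * τ * (k + 1) : ℝ) : ℂ) * (a r * ((((β - 2 * τ * r) ^ (k + 2))⁻¹ : ℝ) : ℂ))) r := by
  by_cases hr : r ∈ tsupport a
  · have hne : β - 2 * τ * r ≠ 0 := by
      intro h0
      have := h r hr
      rw [h0, abs_zero] at this; linarith
    have h1 : HasDerivAt (fun r : ℝ => β - 2 * τ * r) (-(2 * τ)) r := by
      have := ((hasDerivAt_id' r).const_mul (2 * τ)).const_sub β
      simpa using this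
    have h2 := ((h1.fun_pow (k + 1)).fun_inv (pow_ne_zero _ hne)).ofReal_comp
    have h3 := ((ha.differentiable (by simp)) r).hasDerivAt.fun_mul h2
    refine h3.congr_deriv ?_
    have : (-(((k + 1 : ℕ) : ℝ) * (β - 2 * τ * r) ^ (k + 1 - 1) * -(2 * τ)) /
        ((β - 2 * τ * r) ^ (k + 1)) ^ 2 : ℝ) =
        (2 * τ * (k + 1)) * ((β - 2 * τ * r) ^ (k + 2))⁻¹ := by
      simp only [Nat.add_sub_cancel]
      field_simp
      push_cast; ring
    rw [this]
    push_cast; ring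
  · have hev : a =ᶠ[𝓝 r] 0 := notMem_tsupport_iff_eventuallyEq.1 hr
    have h0 : a r = 0 := hev.eq_of_nhds
    have h1 : deriv a r = 0 := by
      rw [hev.deriv_eq]; simp
    have h2 : (fun r => a r * ((((β - 2 * τ * r) ^ (k + 1))⁻¹ : ℝ) : ℂ)) =ᶠ[𝓝 r] fun _ => 0 := by
      filter_upwards [hev] with x hx
      simp [hx]
    rw [h0, h1]
    simp only [zero_mul, mul_zero, add_zero]
    exact (hasDerivAt_const r (0 : ℂ)).congr_of_eventuallyEq h2

theorem continuous_amp {a : ℝ → ℂ} (ha : ContDiff ℝ ∞ a) (k : ℕ) {β τ m : ℝ} (hm : 0 < m)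
    (h : ∀ r ∈ tsupport a, m ≤ |β - 2 * τ * r|) :
    Continuous (fun r => a r * ((((β - 2 * τ * r) ^ k)⁻¹ : ℝ) : ℂ)) := by
  cases k with
  | zero => simpa using ha.continuous
  | succ k =>
    exact continuous_iff_continuousAt.2 fun r => (hasDerivAt_amp ha k hm h r).continuousAt

theorem integrable_amp {a : ℝ → ℂ} (ha : ContDiff ℝ ∞ a) (hc : HasCompactSupport a) (k : ℕ)
    {β τ m : ℝ} (hm : 0 < m) (h : ∀ r ∈ tsupport a, m ≤ |β - 2 * τ * r|) :
    Integrable (fun r => a r * ((((β - 2 * τ * r) ^ k)⁻¹ : ℝ) : ℂ) * eph β τ r) := by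
  refine Continuous.integrable_of_hasCompactSupport
    ((continuous_amp ha k hm h).mul (continuous_eph β τ)) ?_
  exact (hc.mul_right).mul_right

/-- integration by parts -/
theorem J_parts {a : ℝ → ℂ} (ha : ContDiff ℝ ∞ a) (hc : HasCompactSupport a) (k : ℕ)
    {β τ m : ℝ} (hm : 0 < m) (h : ∀ r ∈ tsupport a, m ≤ |β - 2 * τ * r|) :
    (2 * Real.pi * I) * J a k β τ =
      -(J (deriv a) (k + 1) β τ + ((2 * τ * (k + 1) : ℝ) : ℂ) * J a (k + 2) β τ) := by
  have hd : ContDiff ℝ ∞ (deriv a) := by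
    exact (contDiff_infty_iff_deriv.1 ha).2
  have hcd : HasCompactSupport (deriv a) := hc.deriv
  have hsub : ∀ r ∈ tsupport (deriv a), m ≤ |β - 2 * τ * r| :=
    fun r hr => h r (tsupport_deriv_subset hr)
  have hne : ∀ r ∈ tsupport a, β - 2 * τ * r ≠ 0 := by
    intro r hr h0
    have := h r hr
    rw [h0, abs_zero] at this; linarith
  -- the identity
  have key := MeasureTheory.integral_mul_deriv_eq_deriv_mul_of_integrable
    (u := fun r => a r * ((((β - 2 * τ * r) ^ (k + 1))⁻¹ : ℝ) : ℂ))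
    (v := eph β τ)
    (u' := fun r => deriv a r * ((((β - 2 * τ * r) ^ (k + 1))⁻¹ : ℝ) : ℂ) +
        ((2 * τ * (k + 1) : ℝ) : ℂ) * (a r * ((((β - 2 * τ * r) ^ (k + 2))⁻¹ : ℝ) : ℂ)))
    (v' := fun r => (2 * Real.pi * I * ((β - 2 * τ * r : ℝ) : ℂ)) * eph β τ r)
    (fun r _ => hasDerivAt_amp ha k hm h r) (fun r _ => hasDerivAt_eph β τ r)
  have e1 : (fun r => (a r * ((((β - 2 * τ * r) ^ (k + 1))⁻¹ : ℝ) : ℂ)) *
      ((2 * Real.pi * I * ((β - 2 * τ * r : ℝ) : ℂ)) * eph β τ r)) =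
      fun r => (2 * Real.pi * I) * (a r * ((((β - 2 * τ * r) ^ k)⁻¹ : ℝ) : ℂ) * eph β τ r) := by
    funext r
    by_cases hr : r ∈ tsupport a
    · have h1 : ((((β - 2 * τ * r) ^ (k + 1))⁻¹ : ℝ) : ℂ) * ((β - 2 * τ * r : ℝ) : ℂ) =
          ((((β - 2 * τ * r) ^ k)⁻¹ : ℝ) : ℂ) := by
        rw [← Complex.ofReal_mul]
        congr 1
        have := hne r hr
        field_simp
        ring
      calc _ = (2 * Real.pi * I) * (a r * (((((β - 2 * τ * r) ^ (k + 1))⁻¹ : ℝ) : ℂ) *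
            ((β - 2 * τ * r : ℝ) : ℂ)) * eph β τ r) := by ring
        _ = _ := by rw [h1]
    · rw [image_eq_zero_of_notMem_tsupport hr]; ring
  have e2 : (fun r => (deriv a r * ((((β - 2 * τ * r) ^ (k + 1))⁻¹ : ℝ) : ℂ) +
        ((2 * τ * (k + 1) : ℝ) : ℂ) * (a r * ((((β - 2 * τ * r) ^ (k + 2))⁻¹ : ℝ) : ℂ))) *
        eph β τ r) =
      fun r => (deriv a r * ((((β - 2 * τ * r) ^ (k + 1))⁻¹ : ℝ) : ℂ) * eph β τ r) +
        ((2 * τ * (k + 1) : ℝ) : ℂ) *
          (a r * ((((β - 2 * τ * r) ^ (k + 2))⁻¹ : ℝ) : ℂ) * eph β τ r) := by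
    funext r; ring
  have i1 := integrable_amp ha hc k hm h
  have i2 := integrable_amp hd hcd (k + 1) hm hsub
  have i3 := integrable_amp ha hc (k + 2) hm h
  have i4 := integrable_amp ha hc (k + 1) hm h
  have hk := key (by
      show Integrable (fun r => (a r * ((((β - 2 * τ * r) ^ (k + 1))⁻¹ : ℝ) : ℂ)) *
        ((2 * Real.pi * I * ((β - 2 * τ * r : ℝ) : ℂ)) * eph β τ r))
      rw [e1]; exact i1.const_mul _)
    (by
      show Integrable (fun r => (deriv a r * ((((β - 2 * τ * r) ^ (k + 1))⁻¹ : ℝ) : ℂ) +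
        ((2 * τ * (k + 1) : ℝ) : ℂ) * (a r * ((((β - 2 * τ * r) ^ (k + 2))⁻¹ : ℝ) : ℂ))) *
        eph β τ r)
      rw [e2]; exact i2.add (i3.const_mul _))
    i4
  rw [e1, e2, integral_const_mul, integral_add i2 (i3.const_mul _), integral_const_mul] at hk
  exact hk

theorem norm_J_le {N : ℕ} (M : ℝ) : ∀ (a : ℝ → ℂ), ContDiff ℝ ∞ a → HasCompactSupport a → ∀ k : ℕ,
    ∃ C : ℝ, 0 ≤ C ∧ ∀ β τ m : ℝ, 0 < m → |τ| ≤ M * m →
      (∀ r ∈ tsupport a, m ≤ |β - 2 * τ * r|) → ‖J a k β τ‖ ≤ C / m ^ (k + N) := by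
  induction N with
  | zero =>
    intro a ha hc k
    refine ⟨∫ r, ‖a r‖, integral_nonneg fun _ => norm_nonneg _, ?_⟩
    intro β τ m hm _ h
    have hi : Integrable a := ha.continuous.integrable_of_hasCompactSupport hc
    unfold J
    calc ‖∫ r, a r * ((((β - 2 * τ * r) ^ k)⁻¹ : ℝ) : ℂ) * eph β τ r‖
        ≤ ∫ r, ‖a r‖ * (m ^ k)⁻¹ := by
          refine norm_integral_le_of_norm_le (hi.norm.mul_const _) ?_
          refine Filter.Eventually.of_forall fun r => ?_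
          rw [norm_mul, norm_mul, norm_eph, mul_one, Complex.norm_real]
          by_cases hr : r ∈ tsupport a
          · refine mul_le_mul_of_nonneg_left ?_ (norm_nonneg _)
            rw [Real.norm_eq_abs, abs_inv, abs_pow]
            exact inv_anti₀ (by positivity) (pow_le_pow_left₀ hm.le (h r hr) k)
          · rw [image_eq_zero_of_notMem_tsupport hr]; simp
      _ = (∫ r, ‖a r‖) / m ^ (k + 0) := by
          rw [integral_mul_const, div_eq_mul_inv, add_zero]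
  | succ N ih =>
    intro a ha hc k
    have hd : ContDiff ℝ ∞ (deriv a) := by
      have := (contDiff_infty_iff_deriv.1 (by simpa using ha)).2
      simpa using this
    obtain ⟨C1, hC1, h1⟩ := ih (deriv a) hd hc.deriv (k + 1)
    obtain ⟨C2, hC2, h2⟩ := ih a ha hc (k + 2)
    refine ⟨C1 + 2 * |M| * (k + 1) * C2, by positivity, ?_⟩
    intro β τ m hm hτ h
    have hp := J_parts ha hc k hm h
    have hpi : (1 : ℝ) ≤ ‖(2 * Real.pi * I : ℂ)‖ := by
      simp only [norm_mul, Complex.norm_ofNat, Complex.norm_real, Complex.norm_I, mul_one,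
        Real.norm_eq_abs, abs_of_pos Real.pi_pos]
      linarith [Real.two_le_pi]
    have n1 := h1 β τ m hm hτ fun r hr => h r (tsupport_deriv_subset hr)
    have n2 := h2 β τ m hm hτ h
    have hMm : |τ| ≤ |M| * m := hτ.trans (mul_le_mul_of_nonneg_right (le_abs_self M) hm.le)
    calc ‖J a k β τ‖ = 1 * ‖J a k β τ‖ := (one_mul _).symm
      _ ≤ ‖(2 * Real.pi * I : ℂ)‖ * ‖J a k β τ‖ :=
          mul_le_mul_of_nonneg_right hpi (norm_nonneg _)
      _ = ‖(2 * Real.pi * I) * J a k β τ‖ := (norm_mul _ _).symm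
      _ ≤ ‖J (deriv a) (k + 1) β τ‖ + |2 * τ * (k + 1)| * ‖J a (k + 2) β τ‖ := by
          rw [hp, norm_neg]
          refine (norm_add_le _ _).trans ?_
          rw [norm_mul, Complex.norm_real, Real.norm_eq_abs]
      _ ≤ C1 / m ^ (k + 1 + N) + (2 * (|M| * m) * (k + 1)) * (C2 / m ^ (k + 2 + N)) := by
          refine add_le_add n1 (mul_le_mul ?_ n2 (norm_nonneg _) (by positivity))
          rw [abs_mul, abs_mul, abs_two, abs_of_nonneg (by positivity : (0 : ℝ) ≤ (k : ℝ) + 1)]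
          gcongr
      _ = (C1 + 2 * |M| * (k + 1) * C2) / m ^ (k + (N + 1)) := by
          have e3 : m ^ (k + 1 + N) = m ^ (k + (N + 1)) := by congr 1; omega
          have e4 : m ^ (k + 2 + N) = m ^ (k + (N + 1)) * m := by
            rw [← pow_succ]; congr 1; omega
          rw [e3, e4]
          field_simp

/-- **Non-stationary phase, one variable.** -/
theorem nsp (a : ℝ → ℂ) (ha : ContDiff ℝ ∞ a) (hc : HasCompactSupport a) (N : ℕ) (M : ℝ) :
    ∃ C : ℝ, 0 ≤ C ∧ ∀ β τ m : ℝ, 0 < m → |τ| ≤ M * m →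
      (∀ r ∈ tsupport a, m ≤ |β - 2 * τ * r|) →
      ‖∫ r, a r * cexp (2 * Real.pi * I * ((β * r - τ * r ^ 2 : ℝ) : ℂ))‖ ≤ C / m ^ N := by
  obtain ⟨C, hC, h⟩ := norm_J_le (N := N) M a ha hc 0
  refine ⟨C, hC, fun β τ m hm hτ hr => ?_⟩
  have := h β τ m hm hτ hr
  simpa [J, eph] using this

/-- version for real amplitudes -/
theorem nsp_real (a : ℝ → ℝ) (ha : ContDiff ℝ ∞ a) (hc : HasCompactSupport a) (N : ℕ) (M : ℝ) :
    ∃ C : ℝ, 0 ≤ C ∧ ∀ β τ m : ℝ, 0 < m → |τ| ≤ M * m →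
      (∀ r ∈ tsupport a, m ≤ |β - 2 * τ * r|) →
      ‖∫ r, (a r : ℂ) * cexp (2 * Real.pi * I * ((β * r - τ * r ^ 2 : ℝ) : ℂ))‖ ≤ C / m ^ N := by
  have hc' : HasCompactSupport (fun r => (a r : ℂ)) := hc.comp_left (g := ((↑) : ℝ → ℂ)) rfl
  obtain ⟨C, hC, h⟩ := nsp (fun r => (a r : ℂ))
    (Complex.ofRealCLM.contDiff.comp ha) hc' N M
  refine ⟨C, hC, fun β τ m hm hτ hr => h β τ m hm hτ fun r hr' => hr r ?_⟩
  refine closure_mono ?_ hr'
  intro x hx
  simp only [Function.mem_support, ne_eq, Complex.ofReal_eq_zero] at hx ⊢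
  exact hx

end

end Vale.Agent.P076.H40
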