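import Vale.Agent.P122.FI.Pl
import Vale.Agent.P076.H40.NSP

/-!
# P076 / X.BIL : one-dimensional free evolutions (helper40)

`ev g x t = ∫ g(ξ) e(xξ - tξ²) dξ`, `e(a) = e^{2πia}`.
-/

open MeasureTheory Complex Set Filter Topology FourierTransform
open scoped ContDiff ENNReal

namespace Vale.Agent.P076.H40

noncomputable section

/-- `e(a) = e^{2πia}` -/
def ee (a : ℝ) : ℂ := cexp (2 * Real.pi * I * (a : ℂ))

theorem norm_ee (a : ℝ) : ‖ee a‖ = 1 := by
  unfold ee
  have : (2 * Real.pi * I * (a : ℂ)) = ((2 * Real.pi * a : ℝ) : ℂ) * I := by push_cast; ring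
  rw [this, Complex.norm_exp_ofReal_mul_I]

theorem enorm_ee (a : ℝ) : ‖ee a‖ₑ = 1 := by
  rw [← ofReal_norm, norm_ee]; simp

theorem ee_add (a b : ℝ) : ee (a + b) = ee a * ee b := by
  unfold ee; rw [← Complex.exp_add]; congr 1; push_cast; ring

theorem ee_zero : ee 0 = 1 := by simp [ee]

theorem ee_neg_mul (a : ℝ) : ee (-a) * ee a = 1 := by
  rw [← ee_add]; simp [ee_zero]

theorem conj_ee (a : ℝ) : (starRingEnd ℂ) (ee a) = ee (-a) := by
  unfold ee
  rw [← Complex.exp_conj]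
  congr 1
  simp only [map_mul, map_ofNat, Complex.conj_ofReal, Complex.conj_I]
  push_cast; ring

@[fun_prop]
theorem continuous_ee : Continuous ee := by
  unfold ee; fun_prop

@[fun_prop]
theorem measurable_ee : Measurable ee := continuous_ee.measurable

/-- free evolution of the profile `g` -/
def ev (g : ℝ → ℂ) (x t : ℝ) : ℂ := ∫ ξ, g ξ * ee (x * ξ - t * ξ ^ 2)

theorem integrable_mul_ee {α : Type*} [MeasurableSpace α] {μ : Measure α} {g : α → ℂ}
    (hg : Integrable g μ) {φ : α → ℝ} (hφ : Measurable φ) :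
    Integrable (fun a => g a * ee (φ a)) μ := by
  refine (hg.norm.mono' (hg.1.mul (measurable_ee.comp hφ).aestronglyMeasurable) ?_)
  exact Eventually.of_forall fun a => by simp [norm_ee]

theorem norm_ev_le (g : ℝ → ℂ) (x t : ℝ) : ‖ev g x t‖ ≤ ∫ ξ, ‖g ξ‖ := by
  unfold ev
  refine (norm_integral_le_integral_norm _).trans (le_of_eq ?_)
  simp [norm_ee]

theorem continuous_ev {g : ℝ → ℂ} (hg : Integrable g) :
    Continuous fun p : ℝ × ℝ => ev g p.1 p.2 := by
  unfold ev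
  refine continuous_of_dominated (bound := fun ξ => ‖g ξ‖) ?_ ?_ hg.norm ?_
  · intro p
    exact hg.1.mul (by fun_prop)
  · intro p
    exact Eventually.of_forall fun ξ => by simp [norm_ee]
  · exact Eventually.of_forall fun ξ => by fun_prop

/-- change of the origin of time -/
theorem ev_shift (g : ℝ → ℂ) (x t t1 : ℝ) :
    ev g x t = ev (fun ξ => g ξ * ee (-(t1 * ξ ^ 2))) x (t - t1) := by
  unfold ev
  refine integral_congr_ae (Eventually.of_forall fun ξ => ?_)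
  show g ξ * ee (x * ξ - t * ξ ^ 2) = g ξ * ee (-(t1 * ξ ^ 2)) * ee (x * ξ - (t - t1) * ξ ^ 2)
  rw [mul_assoc, ← ee_add]
  congr 2; ring

theorem ev_zero_eq (g : ℝ → ℂ) (y : ℝ) : ev g y 0 = ∫ ξ, g ξ * ee (y * ξ) := by
  unfold ev; simp

theorem ev_zero_eq_inv (g : ℝ → ℂ) (y : ℝ) : ev g y 0 = 𝓕⁻ g y := by
  rw [ev_zero_eq, Vale.Agent.P122.FI.inv_eq_int]
  refine integral_congr_ae (Eventually.of_forall fun ξ => ?_)
  show g ξ * ee (y * ξ) = _
  unfold ee
  simp [mul_comm]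

/-! ### kernels of smooth multipliers -/

/-- decay of the kernel away from the light cone -/
theorem ker_far (ψ : ℝ → ℂ) (hψ : ContDiff ℝ ∞ ψ) (hc : HasCompactSupport ψ) (R0 : ℝ)
    (hR : ∀ ξ ∈ tsupport ψ, |ξ| ≤ R0) (hR0 : 0 ≤ R0) (N : ℕ) (C0 : ℝ) (hC0 : 0 ≤ C0) :
    ∃ C : ℝ, 0 ≤ C ∧ ∀ x0 x y t s : ℝ, 1 ≤ s → |x - x0| ≤ C0 * s → |t| ≤ C0 * s →
      (2 * C0 * (1 + 2 * R0) + 1) * s ≤ |y - x0| → ‖ev ψ (x - y) t‖ ≤ C / |y - x0| ^ N := by
  obtain ⟨C, hC, h⟩ := nsp ψ hψ hc N (2 * C0)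
  refine ⟨C * 2 ^ N, by positivity, ?_⟩
  intro x0 x y t s hs hx ht hy
  have h1 : C0 * s * (1 + 2 * R0) ≤ |y - x0| / 2 := by nlinarith [mul_nonneg hC0 (by linarith : (0:ℝ) ≤ s)]
  have hpos : 0 < |y - x0| := by
    have : 0 ≤ 2 * C0 * (1 + 2 * R0) := by positivity
    nlinarith
  have hm : 0 < |y - x0| / 2 := by positivity
  have h2 := h (x - y) t (|y - x0| / 2) hm ?_ ?_
  · have e : (fun r => ψ r * cexp (2 * Real.pi * I * (((x - y) * r - t * r ^ 2 : ℝ) : ℂ))) =
        fun r => ψ r * ee ((x - y) * r - t * r ^ 2) := rfl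
    rw [e] at h2
    refine (show ‖ev ψ (x - y) t‖ ≤ C / (|y - x0| / 2) ^ N from h2).trans (le_of_eq ?_)
    rw [div_pow]
    field_simp
  · refine ht.trans ?_
    have : s ≤ |y - x0| := by
      have h3 : 0 ≤ 2 * C0 * (1 + 2 * R0) := by positivity
      nlinarith
    nlinarith
  · intro ξ hξ
    have h3 := hR ξ hξ
    have h4 : |x - y - 2 * t * ξ| ≥ |y - x0| - |x - x0| - 2 * |t| * |ξ| := by
      have e1 : y - x0 = (x - x0) - (2 * t * ξ) - (x - y - 2 * t * ξ) := by ring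
      have e2 : |y - x0| ≤ |x - x0| + |2 * t * ξ| + |x - y - 2 * t * ξ| := by
        calc |y - x0| = |(x - x0) - (2 * t * ξ) - (x - y - 2 * t * ξ)| := by rw [← e1]
          _ ≤ |(x - x0) - (2 * t * ξ)| + |x - y - 2 * t * ξ| := abs_sub _ _
          _ ≤ _ := by gcongr; exact abs_sub _ _
      have e3 : |2 * t * ξ| = 2 * |t| * |ξ| := by rw [abs_mul, abs_mul, abs_two]
      linarith
    have h5 : |t| * |ξ| ≤ C0 * s * R0 :=
      mul_le_mul ht h3 (abs_nonneg _) (by positivity)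
    nlinarith

/-- the profile with the phase, as a Schwartz function -/
theorem fourier_ev (ψ : ℝ → ℂ) (hψ : ContDiff ℝ ∞ ψ) (hc : HasCompactSupport ψ) (t : ℝ) :
    Integrable (fun z => ev ψ z t) ∧ ∀ η, ∫ z, ev ψ z t * ee (-(z * η)) = ψ η * ee (-(t * η ^ 2)) := by
  have h1 : ContDiff ℝ ∞ fun ξ : ℝ => ψ ξ * ee (-(t * ξ ^ 2)) := by
    refine hψ.mul ?_
    unfold ee
    have h0 : ContDiff ℝ ∞ fun ξ : ℝ => -(t * ξ ^ 2) := (contDiff_const.mul (contDiff_id.pow 2)).neg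
    have : ContDiff ℝ ∞ fun ξ : ℝ => (2 * Real.pi * I * ((-(t * ξ ^ 2) : ℝ) : ℂ)) :=
      contDiff_const.mul (Complex.ofRealCLM.contDiff.comp h0)
    exact this.cexp
  have h2 : HasCompactSupport fun ξ : ℝ => ψ ξ * ee (-(t * ξ ^ 2)) := hc.mul_right
  set Ψ : SchwartzMap ℝ ℂ := h2.toSchwartzMap h1 with hΨ
  have e1 : ∀ z, ev ψ z t = (𝓕⁻ Ψ) z := by
    intro z
    rw [SchwartzMap.fourierInv_coe, Vale.Agent.P122.FI.inv_eq_int]
    unfold ev
    refine integral_congr_ae (Eventually.of_forall fun ξ => ?_)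
    show ψ ξ * ee (z * ξ - t * ξ ^ 2) = Ψ ξ * cexp (2 * Real.pi * I * ((inner ℝ z ξ : ℝ) : ℂ))
    have e2 : Ψ ξ = ψ ξ * ee (-(t * ξ ^ 2)) := by simp [hΨ]
    rw [e2]
    have e3 : cexp (2 * Real.pi * I * ((inner ℝ z ξ : ℝ) : ℂ)) = ee (z * ξ) := by
      unfold ee; simp [mul_comm]
    rw [e3, mul_assoc, ← ee_add]
    congr 2; ring
  constructor
  · refine ((𝓕⁻ Ψ).integrable).congr (Eventually.of_forall fun z => ?_)
    exact (e1 z).symm
  · intro η
    have e4 : ∫ z, ev ψ z t * ee (-(z * η)) = 𝓕 ((𝓕⁻ Ψ : SchwartzMap ℝ ℂ) : ℝ → ℂ) η := by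
      rw [Real.fourier_eq']
      refine integral_congr_ae (Eventually.of_forall fun z => ?_)
      show ev ψ z t * ee (-(z * η)) = cexp (((-2 * Real.pi * inner ℝ z η : ℝ) : ℂ) * I) • (𝓕⁻ Ψ) z
      rw [e1, smul_eq_mul, mul_comm]
      congr 1
      unfold ee
      congr 1
      simp only [RCLike.inner_apply, conj_trivial]
      push_cast; ring
    rw [e4, ← SchwartzMap.fourier_coe, FourierTransform.fourier_fourierInv_eq]
    simp [hΨ]

theorem measurable_ev {g : ℝ → ℂ} (hg : Integrable g) : Measurable fun p : ℝ × ℝ => ev g p.1 p.2 :=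
  (continuous_ev hg).measurable

/-- `ψ(D) e^{itΔ}` as a convolution with the kernel `ev ψ · t` -/
theorem ev_mul_eq (ψ : ℝ → ℂ) (hψ : ContDiff ℝ ∞ ψ) (hc : HasCompactSupport ψ) {g : ℝ → ℂ}
    (hg : Integrable g) (x t : ℝ) :
    ev (fun ξ => ψ ξ * g ξ) x t = ∫ y, ev ψ (x - y) t * ev g y 0 := by
  obtain ⟨hi, hf⟩ := fourier_ev ψ hψ hc t
  have hi' : Integrable fun y => ev ψ (x - y) t := hi.comp_sub_left x
  have e0 : ∀ y, ev ψ (x - y) t * ev g y 0 = ∫ η, ev ψ (x - y) t * (g η * ee (y * η)) := by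
    intro y; rw [ev_zero_eq, integral_const_mul]
  simp_rw [e0]
  rw [integral_integral_swap]
  · unfold ev
    refine integral_congr_ae (Eventually.of_forall fun η => ?_)
    show ψ η * g η * ee (x * η - t * η ^ 2) = ∫ y, ev ψ (x - y) t * (g η * ee (y * η))
    have e1 : ∫ y, ev ψ (x - y) t * (g η * ee (y * η)) = ∫ z, ev ψ z t * (g η * ee ((x - z) * η)) := by
      rw [← integral_sub_left_eq_self (fun z => ev ψ z t * (g η * ee ((x - z) * η))) volume x]
      refine integral_congr_ae (Eventually.of_forall fun y => ?_)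
      show _ = ev ψ (x - y) t * (g η * ee ((x - (x - y)) * η))
      rw [sub_sub_cancel]
    rw [e1]
    have e2 : ∀ z, ev ψ z t * (g η * ee ((x - z) * η)) = (g η * ee (x * η)) * (ev ψ z t * ee (-(z * η))) := by
      intro z
      have : ee ((x - z) * η) = ee (x * η) * ee (-(z * η)) := by rw [← ee_add]; congr 1; ring
      rw [this]; ring
    simp_rw [e2]
    rw [integral_const_mul, hf η]
    have e3 : ee (x * η - t * η ^ 2) = ee (x * η) * ee (-(t * η ^ 2)) := by rw [← ee_add]; congr 1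
    rw [e3]; ring
  · have h1 : Integrable (fun p : ℝ × ℝ => ev ψ (x - p.1) t * g p.2) (volume.prod volume) := hi'.mul_prod hg
    refine (h1.norm.mono' ?_ ?_)
    · have h2 := h1.1.mul (g := fun p : ℝ × ℝ => ee (p.1 * p.2)) (by fun_prop)
      refine h2.congr (Eventually.of_forall fun p => ?_)
      simp [Function.uncurry, mul_assoc]
    · refine Eventually.of_forall fun p => ?_
      simp [Function.uncurry, norm_ee]

/-- the same for an arbitrary integrable function in physical space -/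
theorem conv_eq_ev (ψ : ℝ → ℂ) (hψ : Integrable ψ) {n : ℝ → ℂ} (hn : Integrable n) (x t : ℝ) :
    ∫ y, ev ψ (x - y) t * n y = ev (fun ξ => ψ ξ * ∫ y, n y * ee (-(y * ξ))) x t := by
  have e0 : ∀ y, ev ψ (x - y) t * n y = ∫ ξ, (ψ ξ * ee ((x - y) * ξ - t * ξ ^ 2)) * n y := by
    intro y; unfold ev; rw [integral_mul_const]
  simp_rw [e0]
  rw [integral_integral_swap]
  · unfold ev
    refine integral_congr_ae (Eventually.of_forall fun ξ => ?_)
    show ∫ y, ψ ξ * ee ((x - y) * ξ - t * ξ ^ 2) * n y = ψ ξ * (∫ y, n y * ee (-(y * ξ))) * ee (x * ξ - t * ξ ^ 2)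
    have e2 : ∀ y, ψ ξ * ee ((x - y) * ξ - t * ξ ^ 2) * n y =
        (ψ ξ * ee (x * ξ - t * ξ ^ 2)) * (n y * ee (-(y * ξ))) := by
      intro y
      have : ee ((x - y) * ξ - t * ξ ^ 2) = ee (x * ξ - t * ξ ^ 2) * ee (-(y * ξ)) := by
        rw [← ee_add]; congr 1; ring
      rw [this]; ring
    simp_rw [e2]
    rw [integral_const_mul]; ring
  · have h1 : Integrable (fun p : ℝ × ℝ => n p.1 * ψ p.2) (volume.prod volume) := hn.mul_prod hψ
    refine (h1.norm.mono' ?_ ?_)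
    · have h2 := h1.1.mul (g := fun p : ℝ × ℝ => ee ((x - p.1) * p.2 - t * p.2 ^ 2)) (by fun_prop)
      refine h2.congr (Eventually.of_forall fun p => ?_)
      show _ = Function.uncurry _ p
      simp only [Function.uncurry, Pi.mul_apply]
      ring
    · refine Eventually.of_forall fun p => ?_
      simp only [Function.uncurry, norm_mul, norm_ee, mul_one]
      rw [mul_comm]

end

end Vale.Agent.P076.H40
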