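import Vale.Agent.P076.H40.Bil4
import Vale.Agent.P076.H972.EnW

/-!
# P076 / X.BIL : localisation of `ψ(D) u` at scale `s` (helper40)
-/

open MeasureTheory Complex Set Filter Topology FourierTransform
open scoped ENNReal ContDiff

namespace Vale.Agent.P076.H40

open Vale.Agent.P076

noncomputable section

theorem ex_eq_ee (a : ℝ) : X.ex a = ee a := by
  unfold X.ex ee
  congr 1
  push_cast; ring

theorem sol_eq_ev (g : ℝ → ℂ) (x t : ℝ) : X.sol g x t = ev g x t := by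
  unfold X.sol ev
  simp_rw [ex_eq_ee]

/-- weighted energy at scale `s` -/
def Es (s x0 t1 : ℝ) (h : ℝ → ℂ) : ℝ := ∫ y, X.W s (x0 - y) * ‖ev h y t1‖ ^ 2

theorem Es_nonneg {s : ℝ} (hs : 0 < s) (x0 t1 : ℝ) (h : ℝ → ℂ) : 0 ≤ Es s x0 t1 h := by
  unfold Es
  refine integral_nonneg fun y => ?_
  unfold X.W
  positivity

theorem Es_lint {s : ℝ} (hs : 0 < s) (x0 t1 : ℝ) {h : ℝ → ℂ} (hh : Integrable h) :
    ∫⁻ y, ENNReal.ofReal (X.W s (x0 - y)) * ‖ev h y t1‖ₑ ^ 2 = ENNReal.ofReal (Es s x0 t1 h) := by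
  unfold Es
  have hi := H972.integrable_W_sol hs hh x0 t1
  simp_rw [sol_eq_ev] at hi
  rw [ofReal_integral_eq_lintegral_ofReal hi (Eventually.of_forall fun y => by unfold X.W; positivity)]
  refine lintegral_congr fun y => ?_
  rw [ENNReal.ofReal_mul (by unfold X.W; positivity), ENNReal.ofReal_pow (norm_nonneg _), ofReal_norm]

theorem W_eq' {s : ℝ} (hs : 0 < s) (z : ℝ) : X.W s z = (2 * s ^ 3 / Real.pi) / (s ^ 2 + z ^ 2) ^ 2 := by
  unfold X.W
  have h1 : s ^ 2 + z ^ 2 ≠ 0 := by positivity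
  have hp := Real.pi_ne_zero
  field_simp

/-- the tail integral -/
theorem lint_tail {s : ℝ} (hs : 0 < s) (x0 : ℝ) :
    ∫⁻ y, ENNReal.ofReal (2 / (s ^ 2 + (y - x0) ^ 2)) = ENNReal.ofReal (2 * Real.pi / s) := by
  have h1 : ∀ y, ENNReal.ofReal (2 / (s ^ 2 + (y - x0) ^ 2)) =
      ENNReal.ofReal (2 / s ^ 2) * rh (s⁻¹ * (y - x0)) := by
    intro y
    unfold rh
    rw [← ENNReal.ofReal_mul (by positivity)]
    congr 1
    field_simp
  simp_rw [h1]
  have hm : Measurable fun y => rh (s⁻¹ * (y - x0)) := by fun_prop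
  rw [lintegral_const_mul _ hm]
  rw [lintegral_sub_right_eq_self (fun y => rh (s⁻¹ * y)) x0,
    lintegral_scale measurable_rh (inv_ne_zero hs.ne'), lintegral_rh, inv_inv, abs_of_pos hs,
    ← ENNReal.ofReal_mul (by positivity), ← ENNReal.ofReal_mul (by positivity)]
  congr 1
  field_simp

/-- Plancherel for the transform of an integrable square integrable function in physical space -/
theorem planch_phys (n : ℝ → ℂ) (h1 : Integrable n) (h2 : MemLp n 2) :
    ∫⁻ ξ, ‖∫ y, n y * ee (-(y * ξ))‖ₑ ^ 2 = ∫⁻ y, ‖n y‖ₑ ^ 2 := by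
  rw [← planch_ee n h1 h2]
  have h : ∀ ξ : ℝ, (∫ y, n y * ee (-(y * ξ))) = ∫ y, n y * ee (-ξ * y) := by
    intro ξ
    refine integral_congr_ae (Eventually.of_forall fun y => ?_)
    show n y * ee (-(y * ξ)) = n y * ee (-ξ * y)
    congr 2; ring
  simp_rw [h]
  exact (lintegral_neg_eq_self (fun x : ℝ => ‖∫ y, n y * ee (x * y)‖ₑ ^ 2) (μ := volume))

/-- **localisation**: near `(x0, t1)`, up to distance `4 s`, `ψ(D) u` is the evolution of a profile of
mass `≲ s E` up to an error `≲ s⁻² √E` -/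
theorem loc (ψ : ℝ → ℂ) (hψ : ContDiff ℝ ∞ ψ) (hc : HasCompactSupport ψ) (R0 : ℝ)
    (hR : ∀ ξ ∈ tsupport ψ, |ξ| ≤ R0) (hR0 : 0 ≤ R0) :
    ∃ C : ℝ, 0 ≤ C ∧ ∀ (s x0 t1 : ℝ) (h : ℝ → ℂ), 1 ≤ s → Integrable h →
      ∃ G : ℝ → ℂ, Pf G R0 ∧ (∀ ξ, G ξ ≠ 0 → ψ ξ ≠ 0) ∧
        ∫⁻ ξ, ‖G ξ‖ₑ ^ 2 ≤ ENNReal.ofReal (C * (s * Es s x0 t1 h)) ∧
        ∀ x t, |x - x0| ≤ 4 * s → |t - t1| ≤ 4 * s →
          ‖ev (fun ξ => ψ ξ * h ξ) x t - ev G x t‖ₑ ^ 2 ≤ ENNReal.ofReal (C * (s⁻¹ ^ 4 * Es s x0 t1 h)) := by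
  obtain ⟨C3, hC3, hker⟩ := ker_far ψ hψ hc R0 hR hR0 3 4 (by norm_num)
  set C2 : ℝ := 2 * 4 * (1 + 2 * R0) + 1 with hC2
  have hC2pos : 1 ≤ C2 := by rw [hC2]; nlinarith
  obtain ⟨bψ, hbψ⟩ := hψ.continuous.bounded_above_of_compact_support hc
  have hbψ0 : 0 ≤ bψ := (norm_nonneg _).trans (hbψ 0)
  refine ⟨bψ ^ 2 * (Real.pi / 2 * (1 + C2 ^ 2) ^ 2) + 4 * Real.pi ^ 2 * C3 ^ 2, by positivity, ?_⟩
  intro s x0 t1 h hs hh
  have hs0 : 0 < s := by linarith
  have hE0 := Es_nonneg hs0 x0 t1 h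
  set E := Es s x0 t1 h with hE
  set h1 : ℝ → ℂ := fun ξ => h ξ * ee (-(t1 * ξ ^ 2)) with hh1
  have hh1i : Integrable h1 := integrable_mul_ee hh (by fun_prop)
  set f : ℝ → ℂ := fun y => ev h y t1 with hf
  have hfe : ∀ y, f y = ev h1 y 0 := by
    intro y
    rw [hf]
    show ev h y t1 = ev h1 y 0
    rw [ev_shift h y t1 t1, sub_self]
  have hfc : Continuous f := (continuous_ev hh).comp (by fun_prop : Continuous fun y : ℝ => (y, t1))
  have hfm : Measurable f := hfc.measurable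
  have hfb : ∀ y, ‖f y‖ ≤ ∫ ξ, ‖h ξ‖ := fun y => norm_ev_le h y t1
  set N : Set ℝ := {y | |y - x0| < C2 * s} with hN
  have hNm : MeasurableSet N := by
    rw [hN]; exact measurableSet_lt (by fun_prop) measurable_const
  set n : ℝ → ℂ := indicator N f with hn
  have hnm : Measurable n := hfm.indicator hNm
  have hNs : ∀ y, y ∈ N → |y| ≤ |x0| + C2 * s := by
    intro y hy
    have h2 : |y - x0| < C2 * s := hy
    calc |y| = |(y - x0) + x0| := by congr 1; ring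
      _ ≤ |y - x0| + |x0| := abs_add_le _ _
      _ ≤ |x0| + C2 * s := by linarith
  obtain ⟨hni, hn2⟩ : Integrable n ∧ MemLp n 2 := by
    refine Pf.of_bdd (R0 := |x0| + C2 * s) hnm.aestronglyMeasurable (b := ∫ ξ, ‖h ξ‖) (fun y => ?_) (fun y hy => ?_)
    · rw [hn]
      by_cases hy : y ∈ N
      · rw [indicator_of_mem hy]; exact hfb y
      · rw [indicator_of_notMem hy, norm_zero]; exact integral_nonneg fun _ => norm_nonneg _
    · refine hNs y ?_
      by_contra hyN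
      exact hy (by rw [hn, indicator_of_notMem hyN])
  set nh : ℝ → ℂ := fun ξ => ∫ y, n y * ee (-(y * ξ)) with hnh
  have hnhm : Measurable nh := by
    have hm : Measurable fun q : ℝ × ℝ => n q.2 * ee (-(q.2 * q.1)) :=
      (hnm.comp measurable_snd).mul (by fun_prop)
    exact (hm.stronglyMeasurable.integral_prod_right').measurable
  have hnhb : ∀ ξ, ‖nh ξ‖ ≤ ∫ y, ‖n y‖ := by
    intro ξ
    rw [hnh]
    refine (norm_integral_le_integral_norm _).trans (le_of_eq ?_)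
    simp [norm_ee]
  set G : ℝ → ℂ := fun ξ => (ψ ξ * nh ξ) * ee (t1 * ξ ^ 2) with hG
  have hGev : ∀ x t, ev G x t = ev (fun ξ => ψ ξ * nh ξ) x (t - t1) := by
    intro x t
    rw [ev_shift G x t t1]
    unfold ev
    refine integral_congr_ae (Eventually.of_forall fun ξ => ?_)
    show G ξ * ee (-(t1 * ξ ^ 2)) * ee (x * ξ - (t - t1) * ξ ^ 2) = ψ ξ * nh ξ * ee (x * ξ - (t - t1) * ξ ^ 2)
    rw [hG]
    show ψ ξ * nh ξ * ee (t1 * ξ ^ 2) * ee (-(t1 * ξ ^ 2)) * ee (x * ξ - (t - t1) * ξ ^ 2) = _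
    rw [mul_assoc (ψ ξ * nh ξ), mul_comm (ee (t1 * ξ ^ 2)), ee_neg_mul, mul_one]
  refine ⟨G, ⟨?_, ?_, ?_⟩, ?_, ?_, ?_⟩
  · rw [hG]
    exact ((hψ.continuous.measurable).mul hnhm).mul (by fun_prop)
  · refine ⟨bψ * ∫ y, ‖n y‖, fun ξ => ?_⟩
    rw [hG]
    show ‖ψ ξ * nh ξ * ee (t1 * ξ ^ 2)‖ ≤ _
    rw [norm_mul, norm_ee, mul_one, norm_mul]
    exact mul_le_mul (hbψ ξ) (hnhb ξ) (norm_nonneg _) hbψ0
  · intro ξ hξ
    refine hR ξ (subset_tsupport _ ?_)
    intro h0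
    refine hξ ?_
    rw [hG]
    show ψ ξ * nh ξ * ee (t1 * ξ ^ 2) = 0
    rw [h0, zero_mul, zero_mul]
  · intro ξ hξ h0
    refine hξ ?_
    rw [hG]
    show ψ ξ * nh ξ * ee (t1 * ξ ^ 2) = 0
    rw [h0, zero_mul, zero_mul]
  · -- the mass
    have m1 : ∫⁻ ξ, ‖G ξ‖ₑ ^ 2 ≤ ENNReal.ofReal (bψ ^ 2) * ∫⁻ ξ, ‖nh ξ‖ₑ ^ 2 := by
      rw [← lintegral_const_mul _ (hnhm.enorm.pow_const 2)]
      refine lintegral_mono fun ξ => ?_
      rw [hG]
      show ‖ψ ξ * nh ξ * ee (t1 * ξ ^ 2)‖ₑ ^ 2 ≤ _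
      rw [enorm_mul, enorm_ee, mul_one, enorm_mul, mul_pow, ENNReal.ofReal_pow hbψ0]
      gcongr
      rw [← ofReal_norm]
      exact ENNReal.ofReal_le_ofReal (hbψ ξ)
    have m2 : ∫⁻ ξ, ‖nh ξ‖ₑ ^ 2 = ∫⁻ y, ‖n y‖ₑ ^ 2 := planch_phys n hni hn2
    have m3 : ∫⁻ y, ‖n y‖ₑ ^ 2 ≤ ENNReal.ofReal (Real.pi / 2 * (1 + C2 ^ 2) ^ 2 * s) * ENNReal.ofReal E := by
      rw [hE, ← Es_lint hs0 x0 t1 hh]
      have hm : Measurable fun y => ENNReal.ofReal (X.W s (x0 - y)) * ‖ev h y t1‖ₑ ^ 2 := by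
        have : Measurable fun y => X.W s (x0 - y) := by unfold X.W; fun_prop
        exact (ENNReal.measurable_ofReal.comp this).mul (hfm.enorm.pow_const 2)
      rw [← lintegral_const_mul _ hm]
      refine lintegral_mono fun y => ?_
      show ‖n y‖ₑ ^ 2 ≤ ENNReal.ofReal (Real.pi / 2 * (1 + C2 ^ 2) ^ 2 * s) *
        (ENNReal.ofReal (X.W s (x0 - y)) * ‖ev h y t1‖ₑ ^ 2)
      by_cases hy : y ∈ N
      · rw [hn, indicator_of_mem hy, ← mul_assoc, ← ENNReal.ofReal_mul (by positivity)]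
        have hle : 1 ≤ Real.pi / 2 * (1 + C2 ^ 2) ^ 2 * s * X.W s (x0 - y) := by
          rw [W_eq' hs0]
          have h2 : |y - x0| < C2 * s := hy
          have h3 : (x0 - y) ^ 2 ≤ (C2 * s) ^ 2 := by
            rw [← sq_abs (x0 - y), abs_sub_comm]
            exact pow_le_pow_left₀ (abs_nonneg _) h2.le 2
          have h4 : (s ^ 2 + (x0 - y) ^ 2) ^ 2 ≤ ((1 + C2 ^ 2) * s ^ 2) ^ 2 := by
            refine pow_le_pow_left₀ (by positivity) ?_ 2
            nlinarith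
          have h5 : Real.pi / 2 * (1 + C2 ^ 2) ^ 2 * s * (2 * s ^ 3 / Real.pi / (s ^ 2 + (x0 - y) ^ 2) ^ 2) =
              ((1 + C2 ^ 2) * s ^ 2) ^ 2 / (s ^ 2 + (x0 - y) ^ 2) ^ 2 := by
            have hp := Real.pi_ne_zero
            field_simp
          rw [h5, one_le_div (by positivity)]
          exact h4
        calc ‖f y‖ₑ ^ 2 = 1 * ‖ev h y t1‖ₑ ^ 2 := by rw [one_mul]
          _ ≤ _ := by
            gcongr
            rw [← ENNReal.ofReal_one]
            exact ENNReal.ofReal_le_ofReal hle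
      · rw [hn, indicator_of_notMem hy]; simp
    calc ∫⁻ ξ, ‖G ξ‖ₑ ^ 2 ≤ ENNReal.ofReal (bψ ^ 2) *
          (ENNReal.ofReal (Real.pi / 2 * (1 + C2 ^ 2) ^ 2 * s) * ENNReal.ofReal E) := by
          refine m1.trans ?_
          rw [m2]
          gcongr
      _ = ENNReal.ofReal (bψ ^ 2 * (Real.pi / 2 * (1 + C2 ^ 2) ^ 2 * s * E)) := by
          rw [← ENNReal.ofReal_mul (by positivity), ← ENNReal.ofReal_mul (by positivity)]
      _ ≤ _ := by
          refine ENNReal.ofReal_le_ofReal ?_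
          have : 0 ≤ 4 * Real.pi ^ 2 * C3 ^ 2 * (s * E) := by positivity
          nlinarith
  · -- the error
    intro x t hx ht
    have e1 : ev (fun ξ => ψ ξ * h ξ) x t = ∫ y, ev ψ (x - y) (t - t1) * f y := by
      rw [ev_shift _ x t t1]
      have e2 := ev_mul_eq ψ hψ hc hh1i x (t - t1)
      have e3 : (fun ξ => ψ ξ * h ξ * ee (-(t1 * ξ ^ 2))) = fun ξ => ψ ξ * h1 ξ := by
        funext ξ; rw [hh1]; ring
      rw [e3, e2]
      refine integral_congr_ae (Eventually.of_forall fun y => ?_)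
      show ev ψ (x - y) (t - t1) * ev h1 y 0 = ev ψ (x - y) (t - t1) * f y
      rw [hfe]
    have hψi : Integrable ψ := hψ.continuous.integrable_of_hasCompactSupport hc
    have e4 : ev G x t = ∫ y, ev ψ (x - y) (t - t1) * n y := by
      rw [hGev, ← conv_eq_ev ψ hψi hni x (t - t1)]
    have hKi : Integrable fun y => ev ψ (x - y) (t - t1) :=
      (fourier_ev ψ hψ hc (t - t1)).1.comp_sub_left x
    have i1 : Integrable fun y => ev ψ (x - y) (t - t1) * f y :=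
      hKi.mul_bdd hfc.aestronglyMeasurable (Eventually.of_forall hfb)
    have i2 : Integrable fun y => ev ψ (x - y) (t - t1) * n y := by
      refine hKi.mul_bdd (c := ∫ ξ, ‖h ξ‖) hnm.aestronglyMeasurable (Eventually.of_forall fun y => ?_)
      rw [hn]
      by_cases hy : y ∈ N
      · rw [indicator_of_mem hy]; exact hfb y
      · rw [indicator_of_notMem hy, norm_zero]; exact integral_nonneg fun _ => norm_nonneg _
    rw [e1, e4, ← integral_sub i1 i2]
    -- pointwise bound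
    have p1 : ∀ y, ‖ev ψ (x - y) (t - t1) * f y - ev ψ (x - y) (t - t1) * n y‖ₑ ≤
        ENNReal.ofReal (2 / (s ^ 2 + (y - x0) ^ 2)) *
          (indicator Nᶜ (fun y => ENNReal.ofReal (C3 / |y - x0|) * ‖f y‖ₑ) y) := by
      intro y
      by_cases hy : y ∈ N
      · rw [hn, indicator_of_mem hy, sub_self]; simp
      · rw [hn, indicator_of_notMem hy, mul_zero, sub_zero, indicator_of_mem (by exact hy), enorm_mul,
          ← mul_assoc, ← ENNReal.ofReal_mul (by positivity)]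
        gcongr
        rw [← ofReal_norm]
        refine ENNReal.ofReal_le_ofReal ?_
        have h2 : C2 * s ≤ |y - x0| := by
          by_contra hcon
          exact hy (not_le.1 hcon)
        have h3 := hker x0 x y (t - t1) s hs hx ht h2
        have h4 : s ≤ |y - x0| := le_trans (by nlinarith) h2
        have h5 : 0 < |y - x0| := by linarith
        refine h3.trans ?_
        rw [div_mul_div_comm, div_le_div_iff₀ (by positivity) (by positivity)]
        have h6 : (y - x0) ^ 2 = |y - x0| ^ 2 := (sq_abs _).symm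
        rw [h6]
        have h7 : s ^ 2 ≤ |y - x0| ^ 2 := pow_le_pow_left₀ hs0.le h4 2
        have h8 : C3 * ((s ^ 2 + |y - x0| ^ 2) * |y - x0|) ≤ C3 * ((|y - x0| ^ 2 + |y - x0| ^ 2) * |y - x0|) := by
          gcongr
        refine h8.trans (le_of_eq ?_)
        ring
    have hmb : Measurable (indicator Nᶜ (fun y => ENNReal.ofReal (C3 / |y - x0|) * ‖f y‖ₑ)) := by
      refine Measurable.indicator ?_ hNm.compl
      have : Measurable fun y => C3 / |y - x0| := by fun_prop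
      exact (ENNReal.measurable_ofReal.comp this).mul hfm.enorm
    have p2 : ∀ y, ENNReal.ofReal (2 / (s ^ 2 + (y - x0) ^ 2)) *
        (indicator Nᶜ (fun y => ENNReal.ofReal (C3 / |y - x0|) * ‖f y‖ₑ) y) ^ 2 ≤
        ENNReal.ofReal (2 * Real.pi * C3 ^ 2 / s ^ 3) * (ENNReal.ofReal (X.W s (x0 - y)) * ‖ev h y t1‖ₑ ^ 2) := by
      intro y
      by_cases hy : y ∈ N
      · rw [indicator_of_notMem (by simpa using hy)]; simp
      · rw [indicator_of_mem (by exact hy), mul_pow, ← mul_assoc, ← mul_assoc,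
          ← ENNReal.ofReal_pow (by positivity), ← ENNReal.ofReal_mul (by positivity),
          ← ENNReal.ofReal_mul (by positivity)]
        refine mul_le_mul_left (ENNReal.ofReal_le_ofReal ?_) _
        have h2 : C2 * s ≤ |y - x0| := by
          by_contra hcon
          exact hy (not_le.1 hcon)
        have h4 : s ≤ |y - x0| := le_trans (by nlinarith) h2
        have h5 : 0 < |y - x0| := by linarith
        have h6 : (y - x0) ^ 2 = |y - x0| ^ 2 := (sq_abs _).symm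
        have h7 : s ^ 2 ≤ |y - x0| ^ 2 := pow_le_pow_left₀ hs0.le h4 2
        rw [W_eq' hs0, show x0 - y = -(y - x0) by ring, neg_sq, h6]
        have h8 : 2 * Real.pi * C3 ^ 2 / s ^ 3 * (2 * s ^ 3 / Real.pi / (s ^ 2 + |y - x0| ^ 2) ^ 2) =
            4 * C3 ^ 2 / (s ^ 2 + |y - x0| ^ 2) ^ 2 := by
          have hp := Real.pi_ne_zero
          field_simp
          ring
        rw [h8, div_pow, div_mul_div_comm, div_le_div_iff₀ (by positivity) (by positivity)]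
        have h9 : s ^ 2 + |y - x0| ^ 2 ≤ 2 * |y - x0| ^ 2 := by linarith
        calc 2 * C3 ^ 2 * (s ^ 2 + |y - x0| ^ 2) ^ 2 =
              2 * C3 ^ 2 * ((s ^ 2 + |y - x0| ^ 2) * (s ^ 2 + |y - x0| ^ 2)) := by ring
          _ ≤ 2 * C3 ^ 2 * ((s ^ 2 + |y - x0| ^ 2) * (2 * |y - x0| ^ 2)) := by gcongr
          _ = 4 * C3 ^ 2 * ((s ^ 2 + |y - x0| ^ 2) * |y - x0| ^ 2) := by ring
    have hma : Measurable fun y => ENNReal.ofReal (2 / (s ^ 2 + (y - x0) ^ 2)) :=
      ENNReal.measurable_ofReal.comp (by fun_prop)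
    calc ‖∫ y, ev ψ (x - y) (t - t1) * f y - ev ψ (x - y) (t - t1) * n y‖ₑ ^ 2
        ≤ (∫⁻ y, ENNReal.ofReal (2 / (s ^ 2 + (y - x0) ^ 2)) *
          (indicator Nᶜ (fun y => ENNReal.ofReal (C3 / |y - x0|) * ‖f y‖ₑ) y)) ^ 2 := by
          gcongr
          exact (enorm_integral_le_lintegral_enorm _).trans (lintegral_mono p1)
      _ ≤ (∫⁻ y, ENNReal.ofReal (2 / (s ^ 2 + (y - x0) ^ 2))) *
          ∫⁻ y, ENNReal.ofReal (2 / (s ^ 2 + (y - x0) ^ 2)) *
            (indicator Nᶜ (fun y => ENNReal.ofReal (C3 / |y - x0|) * ‖f y‖ₑ) y) ^ 2 :=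
          cs_w volume hma.aemeasurable hmb.aemeasurable
      _ ≤ ENNReal.ofReal (2 * Real.pi / s) * (ENNReal.ofReal (2 * Real.pi * C3 ^ 2 / s ^ 3) * ENNReal.ofReal E) := by
          rw [lint_tail hs0]
          gcongr
          have hm : Measurable fun y => ENNReal.ofReal (X.W s (x0 - y)) * ‖ev h y t1‖ₑ ^ 2 := by
            have : Measurable fun y => X.W s (x0 - y) := by unfold X.W; fun_prop
            exact (ENNReal.measurable_ofReal.comp this).mul (hfm.enorm.pow_const 2)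
          rw [hE, ← Es_lint hs0 x0 t1 hh, ← lintegral_const_mul _ hm]
          exact lintegral_mono p2
      _ = ENNReal.ofReal (4 * Real.pi ^ 2 * C3 ^ 2 * (s⁻¹ ^ 4 * E)) := by
          rw [← ENNReal.ofReal_mul (by positivity), ← ENNReal.ofReal_mul (by positivity)]
          congr 1
          field_simp
          ring
      _ ≤ _ := by
          refine ENNReal.ofReal_le_ofReal ?_
          have : 0 ≤ bψ ^ 2 * (Real.pi / 2 * (1 + C2 ^ 2) ^ 2) * (s⁻¹ ^ 4 * E) := by positivity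
          nlinarith

end

end Vale.Agent.P076.H40
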