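import Vale.Agent.P076.H40.Ev
import Mathlib.Analysis.Calculus.BumpFunction.InnerProduct

/-!
# P076 / X.BIL : sampling of band-limited functions (helper40)
-/

open MeasureTheory Complex Set Filter Topology FourierTransform
open scoped ContDiff ENNReal

namespace Vale.Agent.P076.H40

noncomputable section

/-- weighted Cauchy–Schwarz -/
theorem cs_w {α : Type*} [MeasurableSpace α] (μ : Measure α) {a b : α → ℝ≥0∞} (ha : AEMeasurable a μ)
    (hb : AEMeasurable b μ) :
    (∫⁻ x, a x * b x ∂μ) ^ 2 ≤ (∫⁻ x, a x ∂μ) * ∫⁻ x, a x * b x ^ 2 ∂μ := by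
  have h := ENNReal.lintegral_mul_le_Lp_mul_Lq μ Real.HolderConjugate.two_two
    (f := fun x => a x ^ (1 / 2 : ℝ)) (g := fun x => a x ^ (1 / 2 : ℝ) * b x)
    (ha.pow_const _) ((ha.pow_const _).mul hb)
  have e1 : ∀ x, a x ^ (1 / 2 : ℝ) * (a x ^ (1 / 2 : ℝ) * b x) = a x * b x := by
    intro x
    rw [← mul_assoc, ← ENNReal.rpow_add_of_nonneg _ _ (by norm_num) (by norm_num)]
    norm_num
  have e2 : ∀ x, (a x ^ (1 / 2 : ℝ)) ^ (2 : ℝ) = a x := by
    intro x
    rw [← ENNReal.rpow_mul]; norm_num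
  have e3 : ∀ x, (a x ^ (1 / 2 : ℝ) * b x) ^ (2 : ℝ) = a x * b x ^ 2 := by
    intro x
    rw [ENNReal.mul_rpow_of_nonneg _ _ (by norm_num), e2, ENNReal.rpow_two]
  simp only [Pi.mul_apply, e1, e2, e3] at h
  calc (∫⁻ x, a x * b x ∂μ) ^ 2
      ≤ ((∫⁻ x, a x ∂μ) ^ (1 / 2 : ℝ) * (∫⁻ x, a x * b x ^ 2 ∂μ) ^ (1 / 2 : ℝ)) ^ 2 := by
        gcongr
    _ = (∫⁻ x, a x ∂μ) * ∫⁻ x, a x * b x ^ 2 ∂μ := by
        rw [mul_pow, ← ENNReal.rpow_natCast, ← ENNReal.rpow_natCast, ← ENNReal.rpow_mul,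
          ← ENNReal.rpow_mul]
        norm_num

/-- the basic weight -/
def rh (y : ℝ) : ℝ≥0∞ := ENNReal.ofReal (1 / (1 + y ^ 2))

@[fun_prop]
theorem measurable_rh : Measurable rh := by unfold rh; fun_prop

theorem lintegral_rh : ∫⁻ y, rh y = ENNReal.ofReal Real.pi := by
  unfold rh
  rw [← ofReal_integral_eq_lintegral_ofReal]
  · congr 1
    simp [one_div, integral_univ_inv_one_add_sq]
  · simpa [one_div] using integrable_inv_one_add_sq
  · exact Eventually.of_forall fun y => by positivity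

/-- a Schwartz reproducing kernel for frequencies `|λ| ≤ R1` -/
theorem exists_repro (R1 : ℝ) : ∃ (χ : ℝ → ℂ) (C : ℝ), 0 ≤ C ∧ Integrable χ ∧
    (∀ y, ‖χ y‖ₑ ≤ ENNReal.ofReal C * rh y) ∧ ∀ l : ℝ, |l| ≤ R1 → ∫ y, χ y * ee (-(y * l)) = 1 := by
  let b : ContDiffBump (0 : ℝ) := ⟨|R1| + 1, |R1| + 2, by positivity, by linarith⟩
  have h1 : ContDiff ℝ ∞ fun x : ℝ => ((b x : ℝ) : ℂ) := Complex.ofRealCLM.contDiff.comp b.contDiff
  have h2 : HasCompactSupport fun x : ℝ => ((b x : ℝ) : ℂ) :=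
    b.hasCompactSupport.comp_left (g := ((↑) : ℝ → ℂ)) rfl
  set Ψ : SchwartzMap ℝ ℂ := h2.toSchwartzMap h1 with hΨ
  set X : SchwartzMap ℝ ℂ := 𝓕⁻ Ψ with hX
  obtain ⟨C0, hC0⟩ := X.decay 0 0
  obtain ⟨C2, hC2⟩ := X.decay 2 0
  refine ⟨X, C0 + C2, by nlinarith [hC0.1, hC2.1], X.integrable, ?_, ?_⟩
  · intro y
    have a0 := hC0.2 y
    have a2 := hC2.2 y
    simp only [pow_zero, one_mul, norm_iteratedFDeriv_zero, Real.norm_eq_abs, sq_abs] at a0 a2
    unfold rh
    rw [← ofReal_norm, ← ENNReal.ofReal_mul (by nlinarith [hC0.1, hC2.1])]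
    refine ENNReal.ofReal_le_ofReal ?_
    rw [mul_one_div, le_div_iff₀ (by positivity)]
    nlinarith
  · intro l hl
    have e1 : ∫ y, X y * ee (-(y * l)) = (𝓕 (X : ℝ → ℂ)) l := by
      rw [Real.fourier_eq']
      refine integral_congr_ae (Eventually.of_forall fun z => ?_)
      show X z * ee (-(z * l)) = cexp (((-2 * Real.pi * inner ℝ z l : ℝ) : ℂ) * I) • X z
      rw [smul_eq_mul, mul_comm]
      congr 1
      unfold ee
      congr 1
      simp only [RCLike.inner_apply, conj_trivial]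
      push_cast; ring
    rw [e1, ← SchwartzMap.fourier_coe, hX, FourierTransform.fourier_fourierInv_eq]
    have : b l = 1 := b.one_of_mem_closedBall (by
      simp only [Metric.mem_closedBall, dist_zero_right, Real.norm_eq_abs]
      calc |l| ≤ R1 := hl
        _ ≤ |R1| := le_abs_self _
        _ ≤ |R1| + 1 := by linarith)
    simp [hΨ, this]

/-- sampling in one variable, for superpositions of characters -/
theorem samp1 (R1 : ℝ) : ∃ C : ℝ, 0 ≤ C ∧ ∀ (Ω : Type) [MeasurableSpace Ω] (μ : Measure Ω) [SFinite μ]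
    (w : Ω → ℂ) (l : Ω → ℝ), Integrable w μ → Measurable l → (∀ o, w o ≠ 0 → |l o| ≤ R1) →
    ∀ τ : ℝ, ‖∫ o, w o * ee (τ * l o) ∂μ‖ₑ ^ 2 ≤
      ENNReal.ofReal C * ∫⁻ y, rh y * ‖∫ o, w o * ee ((τ - y) * l o) ∂μ‖ₑ ^ 2 := by
  obtain ⟨χ, C, hC, hi, hb, hone⟩ := exists_repro R1
  refine ⟨C ^ 2 * Real.pi, by positivity, ?_⟩
  intro Ω _ μ _ w l hw hl hs τ
  have hmeas : AEMeasurable (fun y => ‖∫ o, w o * ee ((τ - y) * l o) ∂μ‖ₑ) volume := by
    have h0 : AEStronglyMeasurable (fun p : ℝ × Ω => w p.2 * ee ((τ - p.1) * l p.2))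
        (volume.prod μ) :=
      (hw.1.comp_snd).mul (by fun_prop)
    exact h0.integral_prod_right'.enorm
  have key : ∫ o, w o * ee (τ * l o) ∂μ = ∫ y, χ y * ∫ o, w o * ee ((τ - y) * l o) ∂μ := by
    have e1 : ∀ o, w o * ee (τ * l o) = ∫ y, χ y * (w o * ee ((τ - y) * l o)) := by
      intro o
      have e2 : ∀ y, χ y * (w o * ee ((τ - y) * l o)) = (w o * ee (τ * l o)) * (χ y * ee (-(y * l o))) := by
        intro y
        have : ee ((τ - y) * l o) = ee (τ * l o) * ee (-(y * l o)) := by rw [← ee_add]; congr 1; ring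
        rw [this]; ring
      simp_rw [e2]
      rw [integral_const_mul]
      by_cases h0 : w o = 0
      · simp [h0]
      · rw [hone _ (hs o h0), mul_one]
    calc ∫ o, w o * ee (τ * l o) ∂μ = ∫ o, (∫ y, χ y * (w o * ee ((τ - y) * l o))) ∂μ :=
          integral_congr_ae (Eventually.of_forall e1)
      _ = ∫ y : ℝ, (∫ o, χ y * (w o * ee ((τ - y) * l o)) ∂μ) := by
          rw [integral_integral_swap]
          have h1 : Integrable (fun p : Ω × ℝ => w p.1 * χ p.2) (μ.prod volume) := hw.mul_prod hi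
          refine (h1.norm.mono' ?_ ?_)
          · have h2 := h1.1.mul (g := fun p : Ω × ℝ => ee ((τ - p.2) * l p.1)) (by fun_prop)
            refine h2.congr (Eventually.of_forall fun p => ?_)
            show _ = Function.uncurry _ p
            simp only [Function.uncurry, Pi.mul_apply]
            ring
          · refine Eventually.of_forall fun p => ?_
            simp only [Function.uncurry, norm_mul, norm_ee, mul_one]
            rw [mul_comm]
      _ = _ := by
          refine integral_congr_ae (Eventually.of_forall fun y => ?_)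
          show ∫ o, χ y * (w o * ee ((τ - y) * l o)) ∂μ = χ y * ∫ o, w o * ee ((τ - y) * l o) ∂μ
          rw [integral_const_mul]
  rw [key]
  calc ‖∫ y, χ y * ∫ o, w o * ee ((τ - y) * l o) ∂μ‖ₑ ^ 2
      ≤ (∫⁻ y, (ENNReal.ofReal C * rh y) * ‖∫ o, w o * ee ((τ - y) * l o) ∂μ‖ₑ) ^ 2 := by
        gcongr
        refine (enorm_integral_le_lintegral_enorm _).trans (lintegral_mono fun y => ?_)
        rw [enorm_mul]
        gcongr
        exact hb y
    _ ≤ (∫⁻ y, ENNReal.ofReal C * rh y) *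
          ∫⁻ y, (ENNReal.ofReal C * rh y) * ‖∫ o, w o * ee ((τ - y) * l o) ∂μ‖ₑ ^ 2 :=
        cs_w volume (by fun_prop) hmeas
    _ = ENNReal.ofReal (C ^ 2 * Real.pi) * ∫⁻ y, rh y * ‖∫ o, w o * ee ((τ - y) * l o) ∂μ‖ₑ ^ 2 := by
        rw [lintegral_const_mul _ measurable_rh, lintegral_rh]
        simp_rw [mul_assoc]
        have hm2 : AEMeasurable (fun y => rh y * ‖∫ o, w o * ee ((τ - y) * l o) ∂μ‖ₑ ^ 2) volume :=
          measurable_rh.aemeasurable.mul (hmeas.pow_const _)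
        rw [lintegral_const_mul'' _ hm2, ← mul_assoc (ENNReal.ofReal Real.pi),
          ← mul_assoc (ENNReal.ofReal C), ← ENNReal.ofReal_mul (by positivity),
          ← ENNReal.ofReal_mul (by positivity)]
        congr 2
        ring

/-! ### sums over separated points -/

theorem summable_rho : Summable fun m : ℤ => 1 / (1 + (m : ℝ) ^ 2) := by
  have h := (Real.summable_one_div_int_pow (p := 2)).2 (by norm_num)
  refine Summable.of_norm_bounded_eventually h ?_
  have : ({0} : Set ℤ).Finite := Set.finite_singleton 0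
  filter_upwards [this.compl_mem_cofinite] with m hm
  have hm0 : (m : ℝ) ≠ 0 := by
    simpa using hm
  rw [Real.norm_of_nonneg (by positivity)]
  refine one_div_le_one_div_of_le (by positivity) (by linarith)

theorem rho_floor (x u : ℝ) : 1 / (1 + (x - u) ^ 2) ≤ 9 * (1 / (1 + ((⌊x⌋ - ⌊u⌋ : ℤ) : ℝ) ^ 2)) := by
  have h1 := Int.floor_le x
  have h2 := Int.lt_floor_add_one x
  have h3 := Int.floor_le u
  have h4 := Int.lt_floor_add_one u
  rw [mul_one_div, div_le_div_iff₀ (by positivity) (by positivity)]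
  push_cast
  set a := x - ⌊x⌋ with ha
  set b := u - ⌊u⌋ with hb
  have e : (⌊x⌋ : ℝ) - ⌊u⌋ = (x - u) - (a - b) := by rw [ha, hb]; ring
  rw [e]
  have ha1 : 0 ≤ a := by rw [ha]; linarith
  have ha2 : a < 1 := by rw [ha]; linarith
  have hb1 : 0 ≤ b := by rw [hb]; linarith
  have hb2 : b < 1 := by rw [hb]; linarith
  have hd : (a - b) ^ 2 ≤ 1 := by
    rw [sq_le_one_iff_abs_le_one, abs_le]
    constructor <;> linarith
  nlinarith [sq_nonneg ((x - u) + (a - b)), sq_nonneg (x - u)]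

end

end Vale.Agent.P076.H40
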