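import Mathlib

/-!
# P076 / TS.SLAB : splitting a set with few points per unit cell into unit separated classes (helper40)
-/

namespace Vale.Agent.P076.H40

open Classical in
theorem usep {I : Type} (A : Finset I) (u v : I → ℝ) (B : ℕ) (hB0 : 0 < B)
    (hB : ∀ p q : ℤ, (A.filter fun i => ⌊u i⌋ = p ∧ ⌊v i⌋ = q).card ≤ B) :
    ∃ f : I → Fin 4 × Fin B, ∀ c, ∀ i ∈ A, ∀ j ∈ A, f i = c → f j = c → i ≠ j →
      1 ≤ |u i - u j| ∨ 1 ≤ |v i - v j| := by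
  have key : ∀ x y : ℝ, ⌊x⌋ % 2 = ⌊y⌋ % 2 → ⌊x⌋ ≠ ⌊y⌋ → 1 ≤ |x - y| := by
    intro x y h1 h2
    have a1 := Int.floor_le x
    have a2 := Int.lt_floor_add_one x
    have a3 := Int.floor_le y
    have a4 := Int.lt_floor_add_one y
    rcases lt_or_gt_of_ne h2 with h | h
    · have h3 : ⌊x⌋ + 2 ≤ ⌊y⌋ := by omega
      have h4 : (⌊x⌋ : ℝ) + 2 ≤ ⌊y⌋ := by exact_mod_cast h3
      rw [le_abs]; right; linarith
    · have h3 : ⌊y⌋ + 2 ≤ ⌊x⌋ := by omega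
      have h4 : (⌊y⌋ : ℝ) + 2 ≤ ⌊x⌋ := by exact_mod_cast h3
      rw [le_abs]; left; linarith
  -- index inside the cell
  have hidx : ∀ p q : ℤ, ∃ e : I → Fin B, ∀ i ∈ A.filter (fun i => ⌊u i⌋ = p ∧ ⌊v i⌋ = q),
      ∀ j ∈ A.filter (fun i => ⌊u i⌋ = p ∧ ⌊v i⌋ = q), e i = e j → i = j := by
    intro p q
    set s := A.filter (fun i => ⌊u i⌋ = p ∧ ⌊v i⌋ = q) with hs
    refine ⟨fun i => if h : i ∈ s then Fin.castLE (hB p q) (s.equivFin ⟨i, h⟩) else ⟨0, hB0⟩, ?_⟩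
    intro i hi j hj h
    simp only [hi, hj, dif_pos] at h
    have h2 := s.equivFin.injective (Fin.castLE_injective (hB p q) h)
    simpa using h2
  choose e he using hidx
  refine ⟨fun i => (⟨(⌊u i⌋ % 2 + 2 * (⌊v i⌋ % 2)).toNat, by omega⟩, e ⌊u i⌋ ⌊v i⌋ i), ?_⟩
  intro c i hi j hj hci hcj hne
  rw [← hcj] at hci
  simp only [Prod.mk.injEq, Fin.mk.injEq] at hci
  obtain ⟨h1, h2⟩ := hci
  have p1 : ⌊u i⌋ % 2 = ⌊u j⌋ % 2 := by omega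
  have p2 : ⌊v i⌋ % 2 = ⌊v j⌋ % 2 := by omega
  by_cases hu : ⌊u i⌋ = ⌊u j⌋
  · by_cases hv : ⌊v i⌋ = ⌊v j⌋
    · exfalso
      apply hne
      rw [hu, hv] at h2
      refine he ⌊u j⌋ ⌊v j⌋ i ?_ j ?_ h2
      · simp [hi, hu, hv]
      · simp [hj]
    · exact Or.inr (key _ _ p2 hv)
  · exact Or.inl (key _ _ p1 hu)

end Vale.Agent.P076.H40
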